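import Vale.Agent.P045.H414.Iface

/-!
# P045: composition, and growth of intervals
-/

namespace P045.LS

open Finset

/-- **Composition**: an outer hypergraph and inner counterexamples. -/
theorem comp {N T : ℕ} (hO : Outer N T) (a : Fin N → ℕ) (u : ℕ) (hau : ∀ d, a d ≤ u)
    (hmin : ∀ d, ∑ e, a e + T * u ≤ (N + T + 1) * a d)
    (ha : ∀ d, DualCE (a d)) (hu : DualCE u) : DualCE (∑ d, a d + T * u) := by
  classical
  obtain ⟨P, Q, W, Z, _, _, _, _, _, _, _, _, f, hW, hP, hQ, hf, hw⟩ := hO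
  let e : P ≃ Fin N := Fintype.equivFinOfCardEq hP
  let b : P ⊕ Q → ℕ := Sum.elim (fun p => a (e p)) (fun _ => u)
  have hin : ∀ i : P ⊕ Q, DualCE (b i) := by
    rintro (i | i)
    · exact ha (e i)
    · exact hu
  have hsum : ∑ p, a (e p) = ∑ d, a d := Equiv.sum_comp e a
  choose P' W' Z' iP iW iZ dP dW dZ g hne hcard hint hcov using hin
  refine ⟨Σ i, P' i, W × (∀ i, W' i), Z × (Σ i, Z' i), inferInstance, inferInstance,
    inferInstance, inferInstance, inferInstance, inferInstance,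
    fun i w => (f i.1 w.1, ⟨i.1, g i.1 i.2 (w.2 i.1)⟩), ?_, ?_, ?_, ?_⟩
  · obtain ⟨w⟩ := hW
    exact ⟨(w, fun i => (hne i).some)⟩
  · rw [Fintype.card_sigma, Finset.sum_congr rfl fun i _ => hcard i, Fintype.sum_sum_type]
    simp only [Sum.elim_inl, Sum.elim_inr, Finset.sum_const, Finset.card_univ, hQ,
      smul_eq_mul]
    rw [hsum]
  · rintro ⟨w, y⟩ ⟨w', y'⟩
    obtain ⟨i, hi⟩ := hf w w'
    obtain ⟨j, hj⟩ := hint i (y i) (y' i)
    refine ⟨⟨i, j⟩, ?_⟩
    simp only
    rw [hi, hj]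
  · intro C hC
    let C2 : ∀ (i : P ⊕ Q) (_ : Z), Finset (P' i × Z' i) := fun i z =>
      univ.filter fun q => ((⟨i, q.1⟩ : Σ i, P' i), (z, (⟨i, q.2⟩ : Σ i, Z' i))) ∈ C
    let C1 : Finset ((P ⊕ Q) × Z) :=
      univ.filter fun iz => ∀ y : W' iz.1, ∃ j, (j, g iz.1 j y) ∈ C2 iz.1 iz.2
    have hC1 : ∀ w, ∃ i, (i, f i w) ∈ C1 := by
      intro w
      by_contra hcon
      push Not at hcon
      have h1 : ∀ i, ∃ y : W' i, ∀ j, (j, g i j y) ∉ C2 i (f i w) := by
        intro i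
        have := hcon i
        by_contra h2
        push Not at h2
        exact this (Finset.mem_filter.2 ⟨Finset.mem_univ _, h2⟩)
      choose y hy using h1
      obtain ⟨⟨i, j⟩, hij⟩ := hC (w, y)
      exact hy i j (Finset.mem_filter.2 ⟨Finset.mem_univ _, hij⟩)
    have h1 := hw (fun p => a (e p)) u (fun p => hau _) (by
      intro p
      rw [hsum]
      exact hmin _) C1 hC1
    rw [hsum] at h1
    refine h1.trans ?_
    have h2 : ∀ z ∈ C1, Sum.elim (fun p => a (e p)) (fun _ => u) z.1 ≤ (C2 z.1 z.2).card := by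
      intro z hz
      exact hcov z.1 (C2 z.1 z.2) (Finset.mem_filter.1 hz).2
    refine (Finset.sum_le_sum h2).trans ?_
    rw [← Finset.card_sigma]
    refine Finset.card_le_card_of_injOn
      (fun q : (Σ z : (P ⊕ Q) × Z, P' z.1 × Z' z.1) =>
        ((⟨q.1.1, q.2.1⟩ : Σ i, P' i), (q.1.2, (⟨q.1.1, q.2.2⟩ : Σ i, Z' i)))) ?_ ?_
    · rintro ⟨z, q⟩ hq
      have hq2 := (Finset.mem_sigma.1 hq).2
      exact (Finset.mem_filter.1 hq2).2
    · rintro ⟨⟨i, z⟩, ⟨j, ζ⟩⟩ _ ⟨⟨i', z'⟩, ⟨j', ζ'⟩⟩ _ h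
      simp only [Prod.mk.injEq, Sigma.mk.injEq] at h
      obtain ⟨⟨rfl, h2⟩, rfl, -, h4⟩ := h
      rw [eq_of_heq h2, eq_of_heq h4]

/-- `Full a b`: all integers of `[a, b]` are degrees of counterexamples -/
def Full (a b : ℕ) : Prop := ∀ r, a ≤ r → r ≤ b → DualCE r

theorem sum_min (m N : ℕ) : ∑ d ∈ Finset.range N, min 2 (m - 2 * d) = min m (2 * N) := by
  induction N with
  | zero => simp
  | succ N ih => rw [Finset.sum_range_succ, ih]; omega

/-- composition with sizes `y`, `y + 1`, `y + 2` -/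
theorem comp_three {N T y m : ℕ} (hO : Outer N T) (hm : m ≤ 2 * N) (hy : 2 * (N + T) ≤ y)
    (h0 : DualCE y) (h1 : DualCE (y + 1)) (h2 : DualCE (y + 2)) :
    DualCE ((N + T) * y + m + 2 * T) := by
  have hs : ∑ d : Fin N, (y + min 2 (m - 2 * (d : ℕ))) = N * y + m := by
    rw [Fin.sum_univ_eq_sum_range (fun d => y + min 2 (m - 2 * d)) N, Finset.sum_add_distrib,
      sum_min]
    simp only [Finset.sum_const, Finset.card_range, smul_eq_mul]
    omega
  have h := comp hO (fun d : Fin N => y + min 2 (m - 2 * (d : ℕ))) (y + 2)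
    (fun d => by omega) (by
      intro d
      rw [hs]
      have h3 : (N + T + 1) * y ≤ (N + T + 1) * (y + min 2 (m - 2 * (d : ℕ))) :=
        Nat.mul_le_mul_left _ (by omega)
      refine le_trans ?_ h3
      nlinarith) (by
      intro d
      have h3 : min 2 (m - 2 * (d : ℕ)) = 0 ∨ min 2 (m - 2 * (d : ℕ)) = 1 ∨
          min 2 (m - 2 * (d : ℕ)) = 2 := by omega
      rcases h3 with h3 | h3 | h3
      · simp only [h3]; exact h0
      · simp only [h3]; exact h1
      · simp only [h3]; exact h2) h2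
  rw [hs] at h
  have h4 : (N + T) * y + m + 2 * T = N * y + m + T * (y + 2) := by ring
  rw [h4]
  exact h

/-- composition of an interval with one outer hypergraph -/
theorem full_comp {N T a b : ℕ} (hO : Outer N T) (hTN : T ≤ N) (hN : 1 ≤ N) (hab : a + 2 ≤ b)
    (ha : 2 * (N + T) ≤ a) (h : Full a b) : Full ((N + T) * a + 2 * T) ((N + T) * b) := by
  intro r hr1 hr2
  have hpos : 0 < N + T := by omega
  -- the choice of `y`
  obtain ⟨y, m, hya, hyb, hm, hr⟩ : ∃ y m, a ≤ y ∧ y + 2 ≤ b ∧ m ≤ 2 * N ∧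
      r = (N + T) * y + m + 2 * T := by
    by_cases hq : (r - 2 * T) / (N + T) + 2 ≤ b
    · refine ⟨(r - 2 * T) / (N + T), (r - 2 * T) % (N + T), ?_, hq, ?_, ?_⟩
      · rw [Nat.le_div_iff_mul_le hpos]
        have : a * (N + T) = (N + T) * a := Nat.mul_comm _ _
        omega
      · have := Nat.mod_lt (r - 2 * T) hpos
        omega
      · have := Nat.div_add_mod (r - 2 * T) (N + T)
        omega
    · refine ⟨b - 2, r - 2 * T - (N + T) * (b - 2), by omega, by omega, ?_, ?_⟩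
      · obtain ⟨c, rfl⟩ : ∃ c, b = c + 2 := ⟨b - 2, by omega⟩
        rw [Nat.add_sub_cancel]
        have : (N + T) * (c + 2) = (N + T) * c + 2 * (N + T) := by ring
        omega
      · have h1 : b - 2 ≤ (r - 2 * T) / (N + T) := by omega
        rw [Nat.le_div_iff_mul_le hpos] at h1
        have : (b - 2) * (N + T) = (N + T) * (b - 2) := Nat.mul_comm _ _
        omega
  rw [hr]
  exact comp_three hO hm (ha.trans hya) (h y hya (by omega)) (h _ (by omega) (by omega))
    (h _ (by omega) (by omega))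

/-- composition of an interval with a range of outer hypergraphs -/
theorem full_comp_range {N T₁ T₂ a b : ℕ} (h12 : T₁ ≤ T₂)
    (hO : ∀ T, T₁ ≤ T → T ≤ T₂ → Outer N T) (hTN : T₂ ≤ N) (hN : 1 ≤ N) (hab : a + 2 ≤ b)
    (ha : 2 * (N + T₂) ≤ a) (hov : a + 2 * T₂ ≤ (N + T₁) * (b - a)) (h : Full a b) :
    Full ((N + T₁) * a + 2 * T₁) ((N + T₂) * b) := by
  induction T₂, h12 using Nat.le_induction with
  | base => exact full_comp (hO T₁ le_rfl le_rfl) hTN hN hab ha h
  | succ T hT ih =>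
    intro r hr1 hr2
    by_cases hr : r ≤ (N + T) * b
    · exact ih (fun T' h1 h2 => hO T' h1 (by omega)) (by omega) (by omega) (by omega) r hr1 hr
    · refine full_comp (hO (T + 1) (by omega) le_rfl) hTN hN hab ha h r ?_ hr2
      obtain ⟨c, rfl⟩ : ∃ c, b = a + c := ⟨b - a, by omega⟩
      rw [Nat.add_sub_cancel_left] at hov
      have h1 : (N + T₁) * c ≤ (N + T) * c := Nat.mul_le_mul_right _ (by omega)
      have h2 : (N + T) * (a + c) = (N + T) * a + (N + T) * c := by ring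
      have h3 : (N + (T + 1)) * a = (N + T) * a + a := by ring
      omega

theorem pow_grow (ρ k : ℕ) : (ρ + 1 + k) * (ρ + 1) ^ k ≤ (ρ + 1) * (ρ + 2) ^ k := by
  induction k with
  | zero => simp
  | succ k ih =>
    calc (ρ + 1 + (k + 1)) * (ρ + 1) ^ (k + 1)
        = ((ρ + 2 + k) * (ρ + 1)) * (ρ + 1) ^ k := by ring
      _ ≤ ((ρ + 2) * (ρ + 1 + k)) * (ρ + 1) ^ k := by
          refine Nat.mul_le_mul_right _ ?_
          nlinarith
      _ = (ρ + 2) * ((ρ + 1 + k) * (ρ + 1) ^ k) := by ring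
      _ ≤ (ρ + 2) * ((ρ + 1) * (ρ + 2) ^ k) := Nat.mul_le_mul_left _ ih
      _ = (ρ + 1) * (ρ + 2) ^ (k + 1) := by ring

theorem pow_grow' (ρ k : ℕ) (hk : (ρ + 1) ^ 2 ≤ k) : (ρ + 1) ^ (k + 1) ≤ (ρ + 2) ^ k := by
  have h1 := pow_grow ρ k
  have h2 : (ρ + 1) * ((ρ + 1) * (ρ + 1) ^ k) ≤ (ρ + 1) * (ρ + 2) ^ k := by
    refine le_trans ?_ h1
    rw [← mul_assoc]
    refine Nat.mul_le_mul_right _ ?_
    nlinarith
  have h3 := Nat.le_of_mul_le_mul_left h2 (Nat.succ_pos ρ)
  rw [pow_succ, mul_comm]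
  exact h3

/-- **Growth.** -/
theorem growth {N T₁ a b : ℕ} (hO : ∀ T, T₁ ≤ T → T ≤ T₁ + 2 → Outer N T)
    (hTN : T₁ + 2 ≤ N) (hab : a + 2 ≤ b)
    (ha : 2 * (N + T₁ + 2) ≤ a) (hov : 2 * a ≤ (N + T₁) * (b - a)) (h : Full a b) :
    ∃ R, ∀ r, R ≤ r → DualCE r := by
  set ρ := N + T₁ with hρ
  let A : ℕ → ℕ := fun k => Nat.rec a (fun _ x => ρ * x + 2 * T₁) k
  have hA0 : A 0 = a := rfl
  have hAs : ∀ k, A (k + 1) = ρ * A k + 2 * T₁ := fun k => rfl
  have hAa : ∀ k, a ≤ A k := by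
    intro k
    induction k with
    | zero => exact le_rfl
    | succ k ih =>
      rw [hAs]
      nlinarith
  have hA1 : ∀ k, A (k + 1) ≤ (ρ + 1) * A k := by
    intro k
    rw [hAs]
    have := hAa k
    nlinarith
  have hAp : ∀ k, A k ≤ (ρ + 1) ^ k * a := by
    intro k
    induction k with
    | zero => simp [hA0]
    | succ k ih =>
      calc A (k + 1) ≤ (ρ + 1) * A k := hA1 k
        _ ≤ (ρ + 1) * ((ρ + 1) ^ k * a) := Nat.mul_le_mul_left _ ih
        _ = (ρ + 1) ^ (k + 1) * a := by ring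
  -- the invariant
  have hinv : ∀ k, Full (A k) ((ρ + 2) ^ k * b) ∧ A k + 2 ≤ (ρ + 2) ^ k * b ∧
      2 * A k ≤ ρ * ((ρ + 2) ^ k * b - A k) := by
    intro k
    induction k with
    | zero => simpa [hA0] using ⟨h, hab, hov⟩
    | succ k ih =>
      obtain ⟨ih1, ih2, ih3⟩ := ih
      set B := (ρ + 2) ^ k * b with hB
      have hBs : (ρ + 2) ^ (k + 1) * b = (ρ + 2) * B := by rw [hB]; ring
      rw [hBs, hAs]
      have hAk := hAa k
      obtain ⟨c, hc⟩ : ∃ c, B = A k + c := ⟨B - A k, by omega⟩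
      rw [hc, Nat.add_sub_cancel_left] at ih3
      refine ⟨?_, ?_, ?_⟩
      · have := full_comp_range (N := N) (T₁ := T₁) (T₂ := T₁ + 2) (a := A k) (b := B) (by omega)
          hO hTN (by omega) ih2 (by omega) (by
            rw [hc, Nat.add_sub_cancel_left, ← hρ]
            omega) ih1
        rw [← hρ, show N + (T₁ + 2) = ρ + 2 by omega] at this
        exact this
      · rw [hc]
        nlinarith
      · have h1 : (ρ + 1) * c ≤ (ρ + 2) * B - (ρ * A k + 2 * T₁) := by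
          have h2 : (ρ + 2) * B = (ρ + 2) * A k + (ρ + 2) * c := by rw [hc]; ring
          have h3 : (ρ + 2) * A k = ρ * A k + 2 * A k := by ring
          have h4 : (ρ + 2) * c = (ρ + 1) * c + c := by ring
          omega
        have h5 : 2 * (ρ * A k + 2 * T₁) ≤ 2 * ((ρ + 1) * A k) := by
          have := hA1 k
          rw [hAs] at this
          omega
        calc 2 * (ρ * A k + 2 * T₁) ≤ 2 * ((ρ + 1) * A k) := h5
          _ = (ρ + 1) * (2 * A k) := by ring
          _ ≤ (ρ + 1) * (ρ * c) := Nat.mul_le_mul_left _ ih3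
          _ = ρ * ((ρ + 1) * c) := by ring
          _ ≤ _ := Nat.mul_le_mul_left _ h1
  -- the intervals overlap
  have hover : ∀ k, (ρ + 1) ^ 2 ≤ k → A (k + 1) ≤ (ρ + 2) ^ k * b := by
    intro k hk
    calc A (k + 1) ≤ (ρ + 1) ^ (k + 1) * a := hAp (k + 1)
      _ ≤ (ρ + 2) ^ k * a := Nat.mul_le_mul_right _ (pow_grow' ρ k hk)
      _ ≤ _ := Nat.mul_le_mul_left _ (by omega)
  have hAk : ∀ k, k ≤ A k := by
    intro k
    induction k with
    | zero => exact Nat.zero_le _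
    | succ k ih =>
      rw [hAs]
      have := hAa k
      nlinarith
  have hmain : ∀ j r, A ((ρ + 1) ^ 2) ≤ r → r ≤ A ((ρ + 1) ^ 2 + j) → DualCE r := by
    intro j
    induction j with
    | zero =>
      intro r h1 h2
      have h3 := (hinv ((ρ + 1) ^ 2))
      exact h3.1 r h1 (by
        have := h3.2.1
        rw [Nat.add_zero] at h2
        omega)
    | succ j ih =>
      intro r h1 h2
      rcases le_or_gt r (A ((ρ + 1) ^ 2 + j)) with h3 | h3
      · exact ih r h1 h3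
      · have h4 := hinv ((ρ + 1) ^ 2 + j)
        exact h4.1 r h3.le (h2.trans (hover ((ρ + 1) ^ 2 + j) (Nat.le_add_right _ _)))
  refine ⟨A ((ρ + 1) ^ 2), fun r hr => hmain r r hr ?_⟩
  exact (hAk r).trans (by
    have : ∀ i j, A i ≤ A (j + i) := by
      intro i j
      induction j with
      | zero => rw [Nat.zero_add]
      | succ j ih =>
        refine ih.trans ?_
        rw [show j + 1 + i = (j + i) + 1 by ring, hAs]
        nlinarith
    exact this r _)

end P045.LS
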