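import Vale.Agent.P045.H414.Inst
import Vale.Agent.P045.H414.Comp

/-!
# P045: the conjecture of Ryser fails for all sufficiently large `r`
-/

namespace P045.LS

open Finset Vale.Agent.P045

/-- a gadget with 126 classes and `T` colours, all class sizes at least `σ` -/
def HasGadget (σ T : ℕ) : Prop :=
  ∃ (Γ A Λ : Type) (_ : Fintype Γ) (_ : Fintype A) (_ : DecidableEq A) (_ : Fintype Λ)
    (k : Γ → ℕ) (_ : Gadget Γ A Λ k),
    Fintype.card Γ = 126 ∧ Fintype.card A = T ∧ ∀ c, σ ≤ k c

theorem hasGadget_even (σ : ℕ) : HasGadget σ (126 * σ) := by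
  classical
  have hne : Nonempty {L : Finset (Fin (2 * σ)) // L.card = σ} :=
    (pairGadget σ).exists_label true
  refine ⟨Fin 63 × Bool, Fin 63 × Fin (2 * σ),
    Fin 63 → {L : Finset (Fin (2 * σ)) // L.card = σ}, inferInstance, inferInstance,
    inferInstance, inferInstance, _, Gadget.pow (Fin 63) (pairGadget σ), ?_, ?_, ?_⟩
  · rw [Fintype.card_prod, Fintype.card_fin, Fintype.card_bool]
  · rw [Fintype.card_prod, Fintype.card_fin, Fintype.card_fin]; ring
  · exact fun c => le_rfl

theorem hasGadget_odd (σ : ℕ) : HasGadget σ (126 * σ + 3) := by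
  classical
  have hne : Nonempty {L : Finset (Fin (2 * σ)) // L.card = σ} :=
    (pairGadget σ).exists_label true
  have hne1 : Nonempty {P : Fin 3 → Finset (Fin σ) // ∀ i j, (P i).card = (P j).card} :=
    (triGadget σ).exists_label 0
  have hne2 : Nonempty {P : Fin 3 → Finset (Fin (σ + 1)) // ∀ i j, (P i).card = (P j).card} :=
    (triGadget (σ + 1)).exists_label 0
  refine ⟨(Fin 60 × Bool) ⊕ (Fin 3 ⊕ Fin 3),
    (Fin 60 × Fin (2 * σ)) ⊕ ((Fin 3 × Fin σ) ⊕ (Fin 3 × Fin (σ + 1))),
    (Fin 60 → {L : Finset (Fin (2 * σ)) // L.card = σ}) ×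
      ({P : Fin 3 → Finset (Fin σ) // ∀ i j, (P i).card = (P j).card} ×
      {P : Fin 3 → Finset (Fin (σ + 1)) // ∀ i j, (P i).card = (P j).card}),
    inferInstance, inferInstance, inferInstance, inferInstance, _,
    Gadget.sum (Gadget.pow (Fin 60) (pairGadget σ))
      (Gadget.sum (triGadget σ) (triGadget (σ + 1))), ?_, ?_, ?_⟩
  · simp only [Fintype.card_sum, Fintype.card_prod, Fintype.card_fin, Fintype.card_bool]
  · simp only [Fintype.card_sum, Fintype.card_prod, Fintype.card_fin]; ring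
  · rintro (c | c | c)
    · exact le_rfl
    · exact le_rfl
    · exact Nat.le_succ σ

/-- the instance over `F_{127^h}` for one value of `T`, `h` large -/
theorem outer_of_hasGadget {σ T' t : ℕ} (hg : HasGadget σ T') (hσ : 4 ≤ σ) (ht : 4 ≤ t)
    (hT : T' + 2 * t + 2 ≤ 127 * σ) :
    ∃ H, ∀ h, H ≤ h → Nat.Coprime h 126 → Outer (127 ^ h + 1) (T' + 2 * t) := by
  classical
  obtain ⟨Γ, A, Λ, _, _, _, _, k, G, hΓ, hA, hk⟩ := hg
  have hc126 : Fintype.card {l : ZMod 127 // l ≠ 0} = 126 := by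
    rw [Fintype.card_subtype_compl, ZMod.card, Fintype.card_subtype_eq]
  obtain ⟨e⟩ : Nonempty ({l : ZMod 127 // l ≠ 0} ≃ Γ) :=
    Fintype.card_eq.1 (hc126.trans hΓ.symm)
  have hne1 : Nonempty Λ := G.exists_label (e ⟨1, by decide⟩)
  have hne2 : Nonempty {L : Finset (Fin (2 * t)) // L.card = t} :=
    (pairGadget t).exists_label true
  let G' := (G.reindex e).sum (pairGadget t)
  have hcA : Fintype.card (A ⊕ Fin (2 * t)) = T' + 2 * t := by
    rw [Fintype.card_sum, hA, Fintype.card_fin]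
  set c := Fintype.card (Λ × {L : Finset (Fin (2 * t)) // L.card = t}) with hc
  refine ⟨127 ^ 5 + 1000 * (T' + 2 * t + 2) + ((T' + 2 * t + 1) ^ 2 + 1) +
    2 * (128 * (T' + 2 * t + 2) * c), fun h hh hco => ?_⟩
  have hh0 : h ≠ 0 := by
    have := pow5
    omega
  have hfact : Fact (Nat.Prime 127) := fact127
  have : Fintype (GaloisField 127 h) := Fintype.ofFinite _
  have hcard : Fintype.card (GaloisField 127 h) = 127 ^ h := by
    rw [← Nat.card_eq_fintype_card]
    exact GaloisField.card 127 h hh0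
  have hfin : Module.finrank (ZMod 127) (GaloisField 127 h) = h :=
    GaloisField.finrank 127 hh0
  have hlt : h < 127 ^ h := Nat.lt_pow_self (by norm_num)
  have key := outer_of_field (F := GaloisField 127 h) G' (by
      rintro (c | c)
      · exact hσ.trans (hk _)
      · exact ht) (by
      intro l
      rw [hcA]
      have h1 : σ ≤ k (e l) := hk (e l)
      show T' + 2 * t + 2 ≤ k (e l) * 127
      omega) (by rw [hcard]; omega) (by rw [hfin]; exact hco) (by rw [hcA, hcard]; omega)
    (by rw [hcA, hcard]; omega) (by rw [hcA, hcard, ← hc]; omega)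
  rw [hcA, hcard] at key
  exact key

/-- the instance for all `T` in an interval -/
theorem outer_interval (σ : ℕ) (hσ : 4 ≤ σ) :
    ∃ H, ∀ h, H ≤ h → Nat.Coprime h 126 → ∀ T, 126 * σ + 11 ≤ T → T + 2 ≤ 127 * σ →
      Outer (127 ^ h + 1) T := by
  have h1 : ∀ T, ∃ H, ∀ h, H ≤ h → Nat.Coprime h 126 → 126 * σ + 11 ≤ T → T + 2 ≤ 127 * σ →
      Outer (127 ^ h + 1) T := by
    intro T
    by_cases hT : 126 * σ + 11 ≤ T ∧ T + 2 ≤ 127 * σ
    · obtain ⟨s, rfl⟩ : ∃ s, T = 126 * σ + s := ⟨T - 126 * σ, by omega⟩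
      rcases Nat.even_or_odd s with ⟨t, ht⟩ | ⟨t, ht⟩
      · obtain ⟨H, hH⟩ := outer_of_hasGadget (σ := σ) (T' := 126 * σ) (t := t)
          (hasGadget_even σ) hσ (by omega) (by omega)
        refine ⟨H, fun h hh hco _ _ => ?_⟩
        have := hH h hh hco
        rw [show 126 * σ + 2 * t = 126 * σ + s by omega] at this
        exact this
      · obtain ⟨H, hH⟩ := outer_of_hasGadget (σ := σ) (T' := 126 * σ + 3) (t := t - 1)
          (hasGadget_odd σ) hσ (by omega) (by omega)
        refine ⟨H, fun h hh hco _ _ => ?_⟩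
        have := hH h hh hco
        rw [show 126 * σ + 3 + 2 * (t - 1) = 126 * σ + s by omega] at this
        exact this
    · exact ⟨0, fun h _ _ h1 h2 => absurd ⟨h1, h2⟩ hT⟩
  choose H hH using h1
  refine ⟨(Finset.range (127 * σ)).sup H, fun h hh hco T h1 h2 => ?_⟩
  refine hH T h ((Finset.le_sup (f := H) ?_).trans hh) hco h1 h2
  rw [Finset.mem_range]
  omega

/-- an outer hypergraph is itself a counterexample -/
theorem dualCE_of_outer {N T : ℕ} (hO : Outer N T) : DualCE (N + T) := by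
  obtain ⟨P, Q, W, Z, _, _, _, _, _, _, _, _, f, hW, hP, hQ, hf, hw⟩ := hO
  refine ⟨P ⊕ Q, W, Z, inferInstance, inferInstance, inferInstance, inferInstance, inferInstance,
    inferInstance, f, hW, by rw [Fintype.card_sum, hP, hQ], hf, fun C hC => ?_⟩
  have h := hw (fun _ => 1) 1 (fun _ => le_rfl) (by
    intro _
    rw [Finset.sum_const, Finset.card_univ, hP]
    simp only [smul_eq_mul, mul_one]
    omega) C hC
  rw [Finset.sum_const, Finset.card_univ, hP] at h
  simp only [smul_eq_mul, mul_one] at h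
  refine h.trans ?_
  rw [Finset.card_eq_sum_ones]
  refine Finset.sum_le_sum fun z _ => ?_
  rcases z with ⟨i | i, b⟩ <;> exact le_rfl

/-- **The dual form for all sufficiently large `r`.** -/
theorem dualCE_all_large : ∃ R, ∀ r, R ≤ r → DualCE r := by
  obtain ⟨H, hH⟩ := outer_interval 40000 (by norm_num)
  -- the exponents
  have hco1 : Nat.Coprime (42 * (H + 1) + 11) 126 := by
    have h2 : Nat.Coprime (42 * (H + 1) + 11) 42 := by
      rw [Nat.coprime_mul_left_add_left]
      norm_num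
    have h3 : (126 : ℕ) ∣ 42 ^ 2 := by norm_num
    exact Nat.Coprime.coprime_dvd_right h3 (Nat.Coprime.pow_right 2 h2)
  have hco2 : Nat.Coprime (42 * (H + 1) + 13) 126 := by
    have h2 : Nat.Coprime (42 * (H + 1) + 13) 42 := by
      rw [Nat.coprime_mul_left_add_left]
      norm_num
    have h3 : (126 : ℕ) ∣ 42 ^ 2 := by norm_num
    exact Nat.Coprime.coprime_dvd_right h3 (Nat.Coprime.pow_right 2 h2)
  set n := 127 ^ (42 * (H + 1) + 11) with hn
  have hn' : 127 ^ (42 * (H + 1) + 13) = 16129 * n := by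
    rw [hn, show 42 * (H + 1) + 13 = (42 * (H + 1) + 11) + 2 by ring, pow_add]
    norm_num [mul_comm]
  have hnbig : 127 ^ 5 ≤ n := Nat.pow_le_pow_right (by norm_num) (by omega)
  have hp5 := pow5
  have hout := hH (42 * (H + 1) + 11) (by omega) hco1
  have hinn := hH (42 * (H + 1) + 13) (by omega) hco2
  rw [hn'] at hinn
  rw [← hn] at hout
  have hnb : 33038369407 ≤ n := hp5 ▸ hnbig
  clear_value n
  clear hnbig hp5 hn hn'
  have hba : 16129 * n + 5079999 - (16129 * n + 5040012) = 39987 := by omega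
  refine growth (N := n + 1) (T₁ := 5040011) (a := 16129 * n + 5040012)
    (b := 16129 * n + 5079999) ?_ ?_ ?_ ?_ ?_ ?_
  · intro T h1 h2
    exact hout T (by omega) (by omega)
  · omega
  · omega
  · linarith
  · rw [hba]
    linarith
  · intro r h1 h2
    obtain ⟨T, rfl⟩ : ∃ T, r = 16129 * n + 1 + T := ⟨r - (16129 * n + 1), by omega⟩
    exact dualCE_of_outer (hinn T (by omega) (by omega))

/-- **Ryser's conjecture fails for all sufficiently large `r`.** -/
theorem final_all_large :
    ∃ R : ℕ, ∀ r : ℕ, R ≤ r →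
      (∃ (V : Type) (_ : Fintype V) (H : PartiteHypergraph r V),
        H.IsIntersecting ∧ H.matchingNumber = 1 ∧ H.coveringNumber = r) ∧
      ∀ m : ℕ, ∃ (V : Type) (_ : Fintype V) (H : PartiteHypergraph r V),
        H.matchingNumber = m ∧ H.coveringNumber = r * m := by
  obtain ⟨R, hR⟩ := dualCE_all_large
  refine ⟨R + 1, fun r hr => ?_⟩
  obtain ⟨V, iV, H, hI, hν, hτ⟩ := exists_hypergraph (hR r (by omega))
  refine ⟨⟨V, iV, H, hI, hν, hτ⟩, fun m => ?_⟩
  obtain ⟨H', h2, h3⟩ := exists_copies H hI (by omega) hτ m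
  exact ⟨Fin m × V, inferInstance, H', h2, h3⟩

end P045.LS
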