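import Vale.Agent.P045.H414.GSplit

/-!
# P045: the weighted covering lemma
-/

namespace P045.LS

open Finset

namespace GSplit

variable {F : Type} [Field F] [Fintype F] [DecidableEq F] {Γ A Λ : Type} [Fintype A]
    [DecidableEq A] {k : Γ → ℕ} {G : Gadget Γ A Λ k}

/-- a cover by genuine blocks: the blocks on a line of the cover, with weights -/
lemma weight_line (D : GSplit F G) (C : Finset ((Option F ⊕ A) × Blk F A))
    (hC : ∀ w, ∃ i, (i, D.fn i w) ∈ C) (hgen : ∀ z ∈ C, D.Genuine z)
    (a : Option F → ℕ) (u : ℕ) (hau : ∀ d, a d ≤ u) (x : Line F)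
    (_hxC : ∃ z ∈ C, z.2.1 = x)
    (hbad : (univ.filter (fun p : Pt F => On p x ∧ ∃ z ∈ C, z.2.1 ≠ x ∧ On p z.2.1)).card
      ≤ Fintype.card A + 1)
    (hcard : (C.filter (fun z => z.2.1 = x)).card = 1 + gext k (D.typ x)) :
    a x.1 + gext k (D.typ x) * u ≤
      ∑ z ∈ C.filter (fun z => z.2.1 = x), Sum.elim a (fun _ => u) z.1 := by
  classical
  have hsplit : ∑ z ∈ C.filter (fun z => z.2.1 = x), Sum.elim a (fun _ => u) z.1 =
      (halves C x).card * a x.1 + (cols C x).card * u := by
    have h1 := Finset.sum_filter_add_sum_filter_not (C.filter (fun z => z.2.1 = x))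
      (fun z => z.1 = Sum.inl x.1) (fun z => Sum.elim a (fun _ => u) z.1)
    rw [Finset.filter_filter, Finset.filter_filter] at h1
    rw [← h1]
    congr 1
    · rw [Finset.sum_congr rfl (g := fun _ => a x.1)]
      · rw [Finset.sum_const, smul_eq_mul]
        rfl
      · intro z hz
        rw [(Finset.mem_filter.1 hz).2.2]
        rfl
    · rw [Finset.sum_congr rfl (g := fun _ => u)]
      · rw [Finset.sum_const, smul_eq_mul]
        rfl
      · intro z hz
        obtain ⟨hzC, hzx, hzd⟩ := Finset.mem_filter.1 hz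
        rcases z with ⟨d | b, bl⟩
        · exfalso
          apply hzd
          have h2 := D.genuine_inl (hgen _ hzC)
          have hzx' : bl.1 = x := hzx
          show (Sum.inl d : Option F ⊕ A) = Sum.inl x.1
          rw [h2, hzx']
        · rfl
  rw [hsplit]
  have hadd := halves_add_cols C x
  rcases ht : D.typ x with _ | c
  · rw [ht] at hcard
    have h0 : (cols C x).card = 0 := by
      rw [Finset.card_eq_zero, Finset.eq_empty_iff_forall_notMem]
      intro z hz
      obtain ⟨hzC, hzx, hzd⟩ := Finset.mem_filter.1 hz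
      apply hzd
      have h2 := D.genuine_none (hgen _ hzC) (by rw [hzx]; exact ht)
      rw [h2, hzx]
    have h1 : gext k (none : Option Γ) = 0 := rfl
    rw [h1] at hcard ⊢
    have h2 : (halves C x).card = 1 := by omega
    rw [h2, h0]
    omega
  · rw [ht] at hcard
    have h1 : gext k (some c) = k c := rfl
    rw [h1] at hcard ⊢
    obtain ⟨hl1, hl2⟩ := D.line_lemma C hC ht hbad
    have hh := hl2 (by omega)
    have hax := hau x.1
    have hk := D.hk c
    rcases Nat.le_one_iff_eq_zero_or_eq_one.1 hh with h0 | h0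
    · rw [h0] at hadd ⊢
      have h3 : (cols C x).card = k c + 1 := by omega
      rw [h3]
      nlinarith
    · rw [h0] at hadd ⊢
      have h3 : (cols C x).card = k c := by omega
      rw [h3]
      omega

/-- **The weighted covering lemma** for covers by genuine blocks with at most `n + 1 + T` blocks. -/
theorem weight_le_of_card_le [Fintype Γ] (D : GSplit F G)
    (hT : (Fintype.card A + 1) ^ 2 < Fintype.card F)
    (hΓ : Fintype.card A ≤ ∑ c, k c)
    (hrig : ∀ L : Finset (Line F), L.card ≤ Fintype.card F + (Fintype.card A + 1) →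
      (∀ p ∈ D.Om, ∃ x ∈ L, On p x) → ∀ p, ∃ x ∈ L, On p x)
    (C : Finset ((Option F ⊕ A) × Blk F A)) (hC : ∀ w, ∃ i, (i, D.fn i w) ∈ C)
    (hgen : ∀ z ∈ C, D.Genuine z)
    (a : Option F → ℕ) (u : ℕ) (hau : ∀ d, a d ≤ u)
    (hCn : C.card ≤ Fintype.card F + (Fintype.card A + 1)) :
    ∑ d, a d + Fintype.card A * u ≤ ∑ z ∈ C, Sum.elim a (fun _ => u) z.1 := by
  classical
  let L : Finset (Line F) := C.image fun z => z.2.1
  have hLn : L.card ≤ Fintype.card F + (Fintype.card A + 1) := Finset.card_image_le.trans hCn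
  have hLcov : ∀ p ∈ D.Om, ∃ x ∈ L, On p x := by
    intro p hp
    obtain ⟨i, hi⟩ := hC ⟨p, hp⟩
    exact ⟨_, Finset.mem_image.2 ⟨_, hi, rfl⟩, D.fn_on i ⟨p, hp⟩⟩
  have hall := hrig L hLn hLcov
  have hpos : ∀ x ∈ L, 1 ≤ (C.filter (fun z => z.2.1 = x)).card := by
    intro x hx
    obtain ⟨z, hz, hzx⟩ := Finset.mem_image.1 hx
    exact Finset.card_pos.2 ⟨z, Finset.mem_filter.2 ⟨hz, hzx⟩⟩
  -- the line lemma for a line with few bad points
  have hline : ∀ x ∈ L, (univ.filter (fun p : Pt F => On p x ∧ ∃ z ∈ C, z.2.1 ≠ x ∧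
      On p z.2.1)).card ≤ Fintype.card A + 1 →
      1 + gext k (D.typ x) ≤ (C.filter (fun z => z.2.1 = x)).card := by
    intro x hx hbad
    rcases ht : D.typ x with _ | c
    · exact hpos x hx
    · have := (D.line_lemma C hC ht hbad).1
      rw [halves_add_cols] at this
      show 1 + k c ≤ _
      omega
  rcases bruen_aux hLn hT hall with ⟨v, hv⟩ | ⟨d, hd⟩
  · -- a pencil
    have hinj : Function.Injective (fun d : Option F => ((d, icpt d v) : Line F)) := by
      intro d d' h
      exact (Prod.mk.inj h).1
    have hpen : (univ.image fun d : Option F => ((d, icpt d v) : Line F)).card =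
        Fintype.card F + 1 := by
      rw [Finset.card_image_of_injective _ hinj, Finset.card_univ, Fintype.card_option]
    have hM : (L \ (univ.image fun d : Option F => ((d, icpt d v) : Line F))).card ≤
        Fintype.card A := by
      have hsub : (univ.image fun d : Option F => ((d, icpt d v) : Line F)) ⊆ L := by
        intro x hx
        obtain ⟨d, -, rfl⟩ := Finset.mem_image.1 hx
        exact hv d
      have := Finset.card_sdiff_add_card_eq_card hsub
      omega
    have hbadd : ∀ d : Option F, (univ.filter (fun p : Pt F => On p (d, icpt d v) ∧ ∃ z ∈ C,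
          z.2.1 ≠ (d, icpt d v) ∧ On p z.2.1)).card ≤ Fintype.card A + 1 := by
      intro d
      set M := (L \ (univ.image fun d : Option F => ((d, icpt d v) : Line F))).filter
        (fun y => y.1 ≠ d) with hMdef
      have hsub : (univ.filter (fun p : Pt F => On p (d, icpt d v) ∧ ∃ z ∈ C,
          z.2.1 ≠ (d, icpt d v) ∧ On p z.2.1)) ⊆
          insert v (univ.filter (fun p : Pt F => On p (d, icpt d v) ∧ ∃ y ∈ M, On p y)) := by
        intro p hp
        obtain ⟨-, hpx, z, hz, hzx, hpz⟩ := Finset.mem_filter.1 hp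
        by_cases hpv : p = v
        · rw [hpv]; exact Finset.mem_insert_self _ _
        · refine Finset.mem_insert_of_mem (Finset.mem_filter.2 ⟨Finset.mem_univ _, hpx, z.2.1, ?_,
            hpz⟩)
          have hne : z.2.1.1 ≠ d := by
            intro e
            apply hzx
            refine Prod.ext e ?_
            have h1 : icpt z.2.1.1 p = z.2.1.2 := hpz
            have h2 : icpt d p = icpt d v := hpx
            rw [← h1, e, h2]
          refine Finset.mem_filter.2 ⟨Finset.mem_sdiff.2 ⟨Finset.mem_image.2 ⟨z, hz, rfl⟩, ?_⟩, hne⟩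
          intro hmem
          obtain ⟨d', -, hd'⟩ := Finset.mem_image.1 hmem
          apply hpv
          have h1 : icpt z.2.1.1 p = z.2.1.2 := hpz
          have h2 : icpt d p = icpt d v := hpx
          rw [← hd'] at h1 hne
          exact Bruen.eq_of_icpt hne h1 h2
      refine (Finset.card_le_card hsub).trans ((Finset.card_insert_le _ _).trans ?_)
      refine le_trans (Nat.add_le_add_right (Split.card_bad_le (d, icpt d v) M ?_) 1) ?_
      · intro y hy
        exact (Finset.mem_filter.1 hy).2
      · exact (Nat.add_le_add_right (Finset.card_filter_le _ _) 1).trans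
          (Nat.add_le_add_right hM 1)
    have hcount : ∀ d : Option F, 1 + gext k (D.typ (d, icpt d v)) ≤
        (C.filter (fun z => z.2.1 = (d, icpt d v))).card :=
      fun d => hline _ (hv d) (hbadd d)
    have h1 := sum_blocks_le C (fun d : Option F => ((d, icpt d v) : Line F)) hinj (fun _ => 1)
    simp only [Finset.sum_const, smul_eq_mul, mul_one] at h1
    have h2 := Finset.sum_le_sum fun d (_ : d ∈ (univ : Finset (Option F))) => hcount d
    have h3 := D.sum_ext_pencil v
    have h4 : ∑ d : Option F, (1 + gext k (D.typ (d, icpt d v))) =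
        Fintype.card F + 1 + ∑ d : Option F, gext k (D.typ (d, icpt d v)) := by
      rw [Finset.sum_add_distrib, Finset.sum_const, Finset.card_univ, Fintype.card_option,
        smul_eq_mul, mul_one]
    have h5 : ∑ d : Option F, (1 + gext k (D.typ (d, icpt d v))) =
        ∑ d : Option F, (C.filter (fun z => z.2.1 = (d, icpt d v))).card := by omega
    have h6 := (Finset.sum_eq_sum_iff_of_le fun d _ => hcount d).1 h5
    have h7 : ∀ d : Option F, a d + gext k (D.typ (d, icpt d v)) * u ≤
        ∑ z ∈ C.filter (fun z => z.2.1 = (d, icpt d v)), Sum.elim a (fun _ => u) z.1 := by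
      intro d
      obtain ⟨z, hz, hzx⟩ := Finset.mem_image.1 (hv d)
      exact D.weight_line C hC hgen a u hau (d, icpt d v) ⟨z, hz, hzx⟩ (hbadd d)
        (h6 d (Finset.mem_univ d)).symm
    refine le_trans ?_ (sum_blocks_le C (fun d : Option F => ((d, icpt d v) : Line F)) hinj
      (fun z => Sum.elim a (fun _ => u) z.1))
    refine le_trans ?_ (Finset.sum_le_sum fun d _ => h7 d)
    rw [Finset.sum_add_distrib, ← Finset.sum_mul]
    exact Nat.add_le_add_left (Nat.mul_le_mul_right _ (hΓ.trans h3)) _
  · -- a parallel class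
    exfalso
    have hinj : Function.Injective (fun c : F => ((d, c) : Line F)) := by
      intro c c' h
      exact (Prod.mk.inj h).2
    have hpen : (univ.image fun c : F => ((d, c) : Line F)).card = Fintype.card F := by
      rw [Finset.card_image_of_injective _ hinj, Finset.card_univ]
    have hcount : ∀ c : F, 1 + gext k (D.typ (d, c)) ≤
        (C.filter (fun z => z.2.1 = (d, c))).card := by
      intro c
      refine hline _ (hd c) ?_
      set M := L.filter (fun y => y.1 ≠ d) with hMdef
      have hMc : M.card ≤ Fintype.card A + 1 := by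
        have hsub : (univ.image fun c : F => ((d, c) : Line F)) ⊆ L := by
          intro x hx
          obtain ⟨c, -, rfl⟩ := Finset.mem_image.1 hx
          exact hd c
        have h1 := Finset.card_sdiff_add_card_eq_card hsub
        have h2 : M ⊆ L \ (univ.image fun c : F => ((d, c) : Line F)) := by
          intro y hy
          obtain ⟨hy1, hy2⟩ := Finset.mem_filter.1 hy
          refine Finset.mem_sdiff.2 ⟨hy1, fun h => hy2 ?_⟩
          obtain ⟨c, -, rfl⟩ := Finset.mem_image.1 h
          rfl
        have h3 := Finset.card_le_card h2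
        omega
      have hsub : (univ.filter (fun p : Pt F => On p (d, c) ∧ ∃ z ∈ C,
          z.2.1 ≠ (d, c) ∧ On p z.2.1)) ⊆
          univ.filter (fun p : Pt F => On p (d, c) ∧ ∃ y ∈ M, On p y) := by
        intro p hp
        obtain ⟨-, hpx, z, hz, hzx, hpz⟩ := Finset.mem_filter.1 hp
        refine Finset.mem_filter.2 ⟨Finset.mem_univ _, hpx, z.2.1, ?_, hpz⟩
        refine Finset.mem_filter.2 ⟨Finset.mem_image.2 ⟨z, hz, rfl⟩, ?_⟩
        intro e
        apply hzx
        refine Prod.ext e ?_
        have h1 : icpt z.2.1.1 p = z.2.1.2 := hpz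
        have h2 : icpt d p = c := hpx
        rw [← h1, e, h2]
      refine (Finset.card_le_card hsub).trans ((Split.card_bad_le (d, c) M ?_).trans hMc)
      intro y hy
      exact (Finset.mem_filter.1 hy).2
    have h1 := sum_blocks_le C (fun c : F => ((d, c) : Line F)) hinj (fun _ => 1)
    simp only [Finset.sum_const, smul_eq_mul, mul_one] at h1
    have h2 := Finset.sum_le_sum fun d (_ : d ∈ (univ : Finset F)) => hcount d
    rw [Finset.sum_add_distrib, Finset.sum_const, Finset.card_univ] at h2
    have h3 := D.dir d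
    simp only [smul_eq_mul, mul_one] at h2
    omega

/-- **The outer hypergraph.** -/
theorem outer [Fintype Γ] [Nonempty Γ] [Finite Λ] (D : GSplit F G)
    (hT : (Fintype.card A + 1) ^ 2 < Fintype.card F)
    (hrig : ∀ L : Finset (Line F), L.card ≤ Fintype.card F + (Fintype.card A + 1) →
      (∀ p ∈ D.Om, ∃ x ∈ L, On p x) → ∀ p, ∃ x ∈ L, On p x) :
    Outer (Fintype.card F + 1) (Fintype.card A) := by
  classical
  obtain ⟨c0⟩ := (inferInstance : Nonempty Γ)
  obtain ⟨l0⟩ := G.exists_label c0
  refine ⟨Option F, A, {p // p ∈ D.Om}, Blk F A, inferInstance, inferInstance, inferInstance,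
    inferInstance, inferInstance, inferInstance, inferInstance, inferInstance, D.fn, ?_, ?_, rfl,
    D.intersecting, ?_⟩
  · -- nonempty
    have hx : D.typ (D.xl c0 0) = some c0 := D.xl_typ c0 0
    have h2 := D.rich _ c0 hx (G.X c0 l0) (G.sub c0 l0) (G.cardX c0 l0)
    obtain ⟨p, hp⟩ := Finset.card_pos.1 (lt_of_lt_of_le (Nat.succ_pos _) h2)
    exact ⟨⟨p, (Finset.mem_filter.1 hp).1⟩⟩
  · rw [Fintype.card_option]
  · intro a u hau hmin C hC
    -- genuine blocks
    set C' := C.filter fun z => D.Genuine z with hC'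
    have hC'cov : ∀ w, ∃ i, (i, D.fn i w) ∈ C' := by
      intro w
      obtain ⟨i, hi⟩ := hC w
      exact ⟨i, Finset.mem_filter.2 ⟨hi, w, rfl⟩⟩
    refine le_trans ?_ (Finset.sum_le_sum_of_subset (Finset.filter_subset _ C) :
      ∑ z ∈ C', Sum.elim a (fun _ => u) z.1 ≤ _)
    by_cases hcard : C'.card ≤ Fintype.card F + (Fintype.card A + 1)
    · exact D.weight_le_of_card_le hT (G.card_eq l0).le hrig C' hC'cov
        (fun z hz => (Finset.mem_filter.1 hz).2) a u hau hcard
    · obtain ⟨d0, -, hd0⟩ := Finset.exists_min_image (univ : Finset (Option F)) a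
        ⟨none, Finset.mem_univ _⟩
      refine (hmin d0).trans ?_
      have h1 : ∀ z ∈ C', a d0 ≤ Sum.elim a (fun _ => u) z.1 := by
        rintro ⟨d | b, bl⟩ _
        · exact hd0 d (Finset.mem_univ d)
        · exact hau d0
      refine le_trans ?_ (Finset.card_nsmul_le_sum C' _ (a d0) h1)
      rw [smul_eq_mul]
      exact Nat.mul_le_mul_right _ (by omega)

end GSplit

end P045.LS
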