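import Vale.Agent.P045.H414.Gadget

/-!
# P045: split lines and labels for a general gadget, the weighted covering lemma
-/

namespace P045.LS

open Finset

/-- Split lines and labels for a gadget `G`.  `typ x` is the class of the line `x` (`none` if it is
not split), `xl c p` is a line of class `c` through `p`, `S p` is the label of the point `p`. -/
structure GSplit (F : Type) [Field F] [Fintype F] [DecidableEq F] {Γ A Λ : Type} [Fintype A]
    [DecidableEq A] {k : Γ → ℕ} (G : Gadget Γ A Λ k) where
  Om : Finset (Pt F)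
  typ : Line F → Option Γ
  xl : Γ → Pt F → Line F
  S : Pt F → Λ
  hk : ∀ c, 4 ≤ k c
  xl_on : ∀ c p, On p (xl c p)
  xl_typ : ∀ c p, typ (xl c p) = some c
  uniq : ∀ c, ∀ p ∈ Om, ∀ x, On p x → typ x = some c → x = xl c p
  rich : ∀ x c, typ x = some c → ∀ Y : Finset A, Y ⊆ G.M c → Y.card = k c →
    Fintype.card A + 2 ≤ (Om.filter (fun p => On p x ∧ G.X c (S p) = Y)).card
  dir : ∀ d : Option F, Fintype.card A + 1 < ∑ c : F, gext k (typ (d, c))

namespace GSplit

variable {F : Type} [Field F] [Fintype F] [DecidableEq F] {Γ A Λ : Type} [Fintype A]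
    [DecidableEq A] {k : Γ → ℕ} {G : Gadget Γ A Λ k}

/-- the names of the blocks -/
abbrev Blk (F A : Type) : Type := Line F × Option (Finset (Finset A))

/-- the partitions -/
noncomputable def fn (D : GSplit F G) : Option F ⊕ A → {p // p ∈ D.Om} → Blk F A
  | Sum.inl d, p => ((d, icpt d p.1), (D.typ (d, icpt d p.1)).map fun c =>
      ({G.X c (D.S p.1), G.M c \ G.X c (D.S p.1)} : Finset (Finset A)))
  | Sum.inr a, p => (D.xl (G.cls (D.S p.1) a) p.1, none)

lemma fn_on (D : GSplit F G) (i : Option F ⊕ A) (p : {p // p ∈ D.Om}) : On p.1 (D.fn i p).1 := by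
  rcases i with d | a
  · rfl
  · exact D.xl_on _ _

omit [Fintype A] in
lemma sdiff_sdiff_self' {M X : Finset A} (h : X ⊆ M) : M \ (M \ X) = X :=
  Finset.sdiff_sdiff_eq_self h

/-- any two points are together in some block -/
lemma intersecting (D : GSplit F G) (w w' : {p // p ∈ D.Om}) :
    ∃ i, D.fn i w = D.fn i w' := by
  obtain ⟨d, hd⟩ := Split.exists_dir w.1 w'.1
  rcases ht : D.typ (d, icpt d w.1) with _ | c
  · refine ⟨Sum.inl d, ?_⟩
    simp only [fn]
    rw [← hd, ht]
    rfl
  · by_cases h : G.X c (D.S w'.1) = G.M c \ G.X c (D.S w.1)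
    · refine ⟨Sum.inl d, ?_⟩
      simp only [fn]
      rw [← hd, ht]
      simp only [Option.map_some]
      rw [h, sdiff_sdiff_self' (G.sub c _), Finset.pair_comm]
    · have e1 := D.uniq c w.1 w.2 _ (show On w.1 (d, icpt d w.1) from rfl) ht
      have e2 := D.uniq c w'.1 w'.2 (d, icpt d w.1) (show icpt d w'.1 = icpt d w.1 from hd.symm)
        ht
      have e3 : D.xl c w.1 = D.xl c w'.1 := e1.symm.trans e2
      obtain ⟨a, ha, ha'⟩ := G.exists_common c h
      refine ⟨Sum.inr a, ?_⟩
      simp only [fn]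
      rw [G.cls_eq ha, G.cls_eq ha', e3]

/-- a genuine block -/
def Genuine (D : GSplit F G) (z : (Option F ⊕ A) × Blk F A) : Prop := ∃ w, D.fn z.1 w = z.2

/-- a genuine block on an unsplit line is in the part of its direction -/
lemma genuine_none (D : GSplit F G) {z : (Option F ⊕ A) × Blk F A} (hz : D.Genuine z)
    (ht : D.typ z.2.1 = none) : z.1 = Sum.inl z.2.1.1 := by
  rcases z with ⟨i | a, b⟩
  · obtain ⟨w, hw⟩ := hz
    have h : (D.fn (Sum.inl i) w).1.1 = b.1.1 := by
      have : D.fn (Sum.inl i) w = b := hw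
      rw [this]
    have h' : i = b.1.1 := h
    show (Sum.inl i : Option F ⊕ A) = Sum.inl b.1.1
    rw [h']
  · exfalso
    obtain ⟨w, hw⟩ := hz
    have hw' : D.fn (Sum.inr a) w = b := hw
    have h : D.xl (G.cls (D.S w.1) a) w.1 = b.1 := by rw [← hw']; rfl
    have h2 := D.xl_typ (G.cls (D.S w.1) a) w.1
    rw [h] at h2
    have ht' : D.typ b.1 = none := ht
    rw [ht'] at h2
    exact absurd h2 (by simp)

/-- a genuine block in the part of a direction -/
lemma genuine_inl (D : GSplit F G) {d : Option F} {b : Blk F A} (hz : D.Genuine (Sum.inl d, b)) :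
    d = b.1.1 := by
  obtain ⟨w, hw⟩ := hz
  have h : (D.fn (Sum.inl d) w).1.1 = b.1.1 := by
    have : D.fn (Sum.inl d) w = b := hw
    rw [this]
  exact h

/-- a genuine block in the part of a colour -/
lemma genuine_inr (D : GSplit F G) {a : A} {b : Blk F A} (hz : D.Genuine (Sum.inr a, b)) :
    b.2 = none := by
  obtain ⟨w, hw⟩ := hz
  have : D.fn (Sum.inr a) w = b := hw
  rw [← this]
  rfl

/-- the halves of the cover `C` on the line `x` -/
noncomputable def halves (C : Finset ((Option F ⊕ A) × Blk F A)) (x : Line F) :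
    Finset ((Option F ⊕ A) × Blk F A) :=
  C.filter fun z => z.2.1 = x ∧ z.1 = Sum.inl x.1

/-- the colour blocks of the cover `C` on the line `x` -/
noncomputable def cols (C : Finset ((Option F ⊕ A) × Blk F A)) (x : Line F) :
    Finset ((Option F ⊕ A) × Blk F A) :=
  C.filter fun z => z.2.1 = x ∧ ¬ z.1 = Sum.inl x.1

omit [Field F] [Fintype F] [Fintype A] in
lemma halves_add_cols (C : Finset ((Option F ⊕ A) × Blk F A)) (x : Line F) :
    (halves C x).card + (cols C x).card = (C.filter (fun z => z.2.1 = x)).card := by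
  have h1 := Finset.card_filter_add_card_filter_not (s := C.filter (fun z => z.2.1 = x))
    (fun z => z.1 = Sum.inl x.1)
  rw [Finset.filter_filter, Finset.filter_filter] at h1
  exact h1

/-- The line lemma: a split line of the cover on which at most `T + 1` points are on other lines of
the cover carries at least `k + 1` blocks, and if it carries exactly `k + 1` then at most one of
them is a half. -/
lemma line_lemma (D : GSplit F G) (C : Finset ((Option F ⊕ A) × Blk F A))
    (hC : ∀ w, ∃ i, (i, D.fn i w) ∈ C) {x : Line F} {c : Γ}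
    (hx : D.typ x = some c)
    (hbad : (univ.filter (fun p : Pt F => On p x ∧ ∃ z ∈ C, z.2.1 ≠ x ∧ On p z.2.1)).card
      ≤ Fintype.card A + 1) :
    k c + 1 ≤ (halves C x).card + (cols C x).card ∧
      ((halves C x).card + (cols C x).card = k c + 1 → (halves C x).card ≤ 1) := by
  classical
  by_contra hcon
  let A' : Finset A := univ.filter fun a => (Sum.inr a, (x, none)) ∈ C
  let H : Finset (Option (Finset (Finset A))) := (halves C x).image fun z => z.2.2
  have hA : A'.card ≤ (cols C x).card := by
    refine Finset.card_le_card_of_injOn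
      (fun a => ((Sum.inr a, (x, none)) : (Option F ⊕ A) × Blk F A)) ?_ ?_
    · intro a ha
      have := (Finset.mem_filter.1 ha).2
      exact Finset.mem_filter.2 ⟨this, rfl, by simp⟩
    · intro a _ a' _ h
      simpa using h
  have hH : H.card ≤ (halves C x).card := Finset.card_image_le

  obtain ⟨A'', H', hA'', hH', hAH⟩ : ∃ (A'' : Finset A) (H' : Finset (Option (Finset (Finset A)))),
      A' ⊆ A'' ∧ H ⊆ H' ∧
      (A''.card + H'.card ≤ k c ∨ (A''.card + H'.card = k c + 1 ∧ 2 ≤ H'.card)) := by
    by_cases h1 : (halves C x).card + (cols C x).card ≤ k c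
    · exact ⟨A', H, Finset.Subset.refl _, Finset.Subset.refl _, Or.inl (by omega)⟩
    · have h2 : (halves C x).card + (cols C x).card = k c + 1 ∧ 2 ≤ (halves C x).card := by
        by_contra h3
        apply hcon
        refine ⟨by omega, fun h4 => ?_⟩
        by_contra h5
        exact h3 ⟨h4, by omega⟩
      by_cases h6 : A'.card + H.card ≤ k c
      · exact ⟨A', H, Finset.Subset.refl _, Finset.Subset.refl _, Or.inl h6⟩
      · refine ⟨A', H, Finset.Subset.refl _, Finset.Subset.refl _, Or.inr ⟨by omega, ?_⟩⟩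
        omega
  obtain ⟨L, hLM, hL, hLA, hLH⟩ := local_label2 (D.hk c) (G.M c) (G.cardM c)
    (fun S => some ({S, G.M c \ S} : Finset (Finset A))) (by
      intro S S' _ _ h
      have h1 : ({S, G.M c \ S} : Finset (Finset A)) = {S', G.M c \ S'} := Option.some.inj h
      have h3 : S ∈ ({S', G.M c \ S'} : Finset (Finset A)) := by
        rw [← h1]; exact Finset.mem_insert_self _ _
      simpa using h3) A'' H' hAH
  have hrich := D.rich x c hx L hLM hL
  obtain ⟨p, hp, hpbad⟩ : ∃ p ∈ D.Om.filter (fun p => On p x ∧ G.X c (D.S p) = L),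
      p ∉ univ.filter (fun p : Pt F => On p x ∧ ∃ z ∈ C, z.2.1 ≠ x ∧ On p z.2.1) := by
    by_contra h
    push Not at h
    have := Finset.card_le_card (show D.Om.filter (fun p => On p x ∧ G.X c (D.S p) = L) ⊆
      univ.filter (fun p : Pt F => On p x ∧ ∃ z ∈ C, z.2.1 ≠ x ∧ On p z.2.1) from h)
    omega
  obtain ⟨hpO, hpx, hpS⟩ := Finset.mem_filter.1 hp
  obtain ⟨i, hi⟩ := hC ⟨p, hpO⟩
  have hix : (D.fn i ⟨p, hpO⟩).1 = x := by
    by_contra hne
    exact hpbad (Finset.mem_filter.2 ⟨Finset.mem_univ _, hpx, _, hi, hne, D.fn_on i ⟨p, hpO⟩⟩)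
  rcases i with d | a
  · -- a half
    have hdx : (d, icpt d p) = x := hix
    apply hLH
    refine hH' (Finset.mem_image.2 ⟨_, Finset.mem_filter.2 ⟨hi, hix, ?_⟩, ?_⟩)
    · rw [← hdx]
    · show (D.typ (d, icpt d p)).map _ = _
      rw [hdx, hx]
      simp only [Option.map_some]
      rw [hpS]
  · -- a colour
    have hxl : D.xl (G.cls (D.S p) a) p = x := hix
    have h1 : some (G.cls (D.S p) a) = some c := by
      rw [← D.xl_typ (G.cls (D.S p) a) p, hxl, hx]
    have h2 := Option.some.inj h1
    have haL : a ∈ L := by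
      rw [← hpS]
      exact G.mem_iff.2 h2
    refine Finset.disjoint_left.1 hLA haL (hA'' (Finset.mem_filter.2 ⟨Finset.mem_univ _, ?_⟩))
    have : D.fn (Sum.inr a) ⟨p, hpO⟩ = (x, none) := by
      simp only [fn]
      rw [hxl]
    rw [← this]
    exact hi

omit [Field F] [Fintype F] [Fintype A] in
/-- summing over an injective family of lines -/
lemma sum_blocks_le {J : Type} [Fintype J] (C : Finset ((Option F ⊕ A) × Blk F A))
    (y : J → Line F) (hy : Function.Injective y) (w : (Option F ⊕ A) × Blk F A → ℕ) :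
    ∑ j, ∑ z ∈ C.filter (fun z => z.2.1 = y j), w z ≤ ∑ z ∈ C, w z := by
  classical
  rw [← Finset.sum_biUnion]
  · refine Finset.sum_le_sum_of_subset ?_
    intro z hz
    obtain ⟨j, -, hj⟩ := Finset.mem_biUnion.1 hz
    exact (Finset.mem_filter.1 hj).1
  · intro i _ j _ hij
    rw [Function.onFun, Finset.disjoint_left]
    intro z hz hz'
    exact hij (hy ((Finset.mem_filter.1 hz).2.symm.trans (Finset.mem_filter.1 hz').2))

/-- On every point the classes contribute the full sum of label sizes. -/
lemma sum_ext_pencil [Fintype Γ] (D : GSplit F G) (v : Pt F) :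
    ∑ c, k c ≤ ∑ d : Option F, gext k (D.typ (d, icpt d v)) := by
  classical
  have hx : ∀ c, D.xl c v = ((D.xl c v).1, icpt (D.xl c v).1 v) := by
    intro c
    have := D.xl_on c v
    exact Prod.ext rfl this.symm
  have hinj : Function.Injective (fun c : Γ => (D.xl c v).1) := by
    intro c c' h
    have h' : D.xl c v = D.xl c' v := by
      rw [hx c, hx c']
      have h2 : (D.xl c v).1 = (D.xl c' v).1 := h
      rw [h2]
    have h1 : some c = some c' := by
      rw [← D.xl_typ c v, h', D.xl_typ]
    exact Option.some.inj h1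
  have h2 : ∑ c, k c =
      ∑ c : Γ, gext k (D.typ ((D.xl c v).1, icpt (D.xl c v).1 v)) := by
    refine Finset.sum_congr rfl fun c _ => ?_
    rw [← hx c, D.xl_typ]
    rfl
  rw [h2]
  rw [← Finset.sum_image (s := univ) (g := fun c : Γ => (D.xl c v).1)
    (f := fun d => gext k (D.typ (d, icpt d v))) (fun a _ b _ h => hinj h)]
  exact Finset.sum_le_sum_of_subset (Finset.subset_univ _)

end GSplit

end P045.LS
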