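import Vale.Agent.P045.H414.Iface
import Mathlib.Logic.Equiv.Fin.Basic

/-!
# P045: general gadgets and the local lemma
-/

namespace P045.LS

open Finset

/-- the size of the label of a line of type `o` (0 if the line is not split) -/
def gext {Γ : Type} (k : Γ → ℕ) : Option Γ → ℕ
  | none => 0
  | some c => k c

/-- numerical inequality of the local lemma, second form -/
theorem choose_gt2 (k j : ℕ) (hk : 4 ≤ k) (hj : 2 ≤ j) : 2 * j < (k - 1 + j).choose k := by
  obtain ⟨K, rfl⟩ : ∃ K, k = K + 1 := ⟨k - 1, by omega⟩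
  have hK : 3 ≤ K := by omega
  rw [Nat.add_sub_cancel]
  induction K, hK using Nat.le_induction with
  | base =>
    induction j, hj using Nat.le_induction with
    | base => decide
    | succ j hj ih =>
      have h1 : (3 + (j + 1)).choose (3 + 1) = (3 + j).choose 3 + (3 + j).choose (3 + 1) := by
        rw [show 3 + (j + 1) = (3 + j) + 1 by ring, Nat.choose_succ_succ]
      have h2 : (5 : ℕ).choose 3 ≤ (3 + j).choose 3 := Nat.choose_le_choose 3 (by omega)
      have h3 : (5 : ℕ).choose 3 = 10 := by decide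
      have := ih
      omega
  | succ K hK ih =>
    have h1 : (K + 1 + j).choose (K + 1 + 1) =
        (K + j).choose (K + 1) + (K + j).choose (K + 1 + 1) := by
      rw [show K + 1 + j = (K + j) + 1 by ring, Nat.choose_succ_succ]
    have := ih (by omega)
    omega

/-- The local lemma in a `2k`-set `M`: few colours `A'` and few halves `H` do not cover all
labels. -/
theorem local_label2 {A β : Type*} [DecidableEq A] [DecidableEq β] {k : ℕ} (hk : 4 ≤ k)
    (M : Finset A) (hM : M.card = 2 * k) (cl : Finset A → β)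
    (hcl : ∀ S S', S ⊆ M → S' ⊆ M → cl S = cl S' → S = S' ∨ S = M \ S')
    (A' : Finset A) (H : Finset β)
    (hAH : A'.card + H.card ≤ k ∨ (A'.card + H.card = k + 1 ∧ 2 ≤ H.card)) :
    ∃ S : Finset A, S ⊆ M ∧ S.card = k ∧ Disjoint S A' ∧ cl S ∉ H := by
  by_contra hcon
  push Not at hcon
  have h1 : (Finset.powersetCard k (M \ A')).card ≤ 2 * H.card := by
    refine Finset.card_le_mul_card_image_of_maps_to (f := cl) ?_ 2 ?_
    · intro S hS
      rw [Finset.mem_powersetCard] at hS
      exact hcon S (hS.1.trans Finset.sdiff_subset) hS.2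
        (Finset.disjoint_left.2 fun a ha => (Finset.mem_sdiff.1 (hS.1 ha)).2)
    · intro b _
      by_cases hne : ((Finset.powersetCard k (M \ A')).filter (fun S => cl S = b)).Nonempty
      · obtain ⟨S0, hS0⟩ := hne
        have hb : cl S0 = b := (Finset.mem_filter.1 hS0).2
        have hS0M : S0 ⊆ M :=
          (Finset.mem_powersetCard.1 (Finset.mem_filter.1 hS0).1).1.trans Finset.sdiff_subset
        refine (Finset.card_le_card (t := {S0, M \ S0}) ?_).trans Finset.card_le_two
        intro S hS
        have := (Finset.mem_filter.1 hS).2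
        have hSM : S ⊆ M :=
          (Finset.mem_powersetCard.1 (Finset.mem_filter.1 hS).1).1.trans Finset.sdiff_subset
        rcases hcl S S0 hSM hS0M (this.trans hb.symm) with h | h <;> simp [h]
      · rw [Finset.not_nonempty_iff_eq_empty.1 hne]; simp
  rw [Finset.card_powersetCard] at h1
  have h4 : 2 * k - A'.card ≤ (M \ A').card := by
    have := Finset.le_card_sdiff A' M
    omega
  have h5 : (2 * k - A'.card).choose k ≤ (M \ A').card.choose k := Nat.choose_le_choose k h4
  rcases hAH with h | ⟨h, h'⟩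
  · have h2 := choose_gt k H.card (by omega)
    have h3 : (k + H.card).choose k ≤ (2 * k - A'.card).choose k :=
      Nat.choose_le_choose k (by omega)
    omega
  · have h2 := choose_gt2 k H.card hk h'
    have h3 : k - 1 + H.card = 2 * k - A'.card := by omega
    rw [h3] at h2
    omega

/-- A gadget: classes `Γ`, colours `A`, labels `Λ`; the label `l` assigns to the class `c` the set
of colours `X c l`, a `k c`-subset of the `2 k c`-set `M c`; every colour is assigned to exactly
one class, and every `k c`-subset of `M c` occurs. -/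
structure Gadget (Γ A Λ : Type) [DecidableEq A] (k : Γ → ℕ) where
  X : Γ → Λ → Finset A
  M : Γ → Finset A
  cardX : ∀ c l, (X c l).card = k c
  cardM : ∀ c, (M c).card = 2 * k c
  sub : ∀ c l, X c l ⊆ M c
  part : ∀ l a, ∃! c, a ∈ X c l
  surj : ∀ c (Y : Finset A), Y ⊆ M c → Y.card = k c → ∃ l, X c l = Y

namespace Gadget

variable {Γ A Λ : Type} [DecidableEq A] {k : Γ → ℕ}

/-- the class of the colour `a` in the label `l` -/
noncomputable def cls (G : Gadget Γ A Λ k) (l : Λ) (a : A) : Γ := (G.part l a).choose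

theorem mem_cls (G : Gadget Γ A Λ k) (l : Λ) (a : A) : a ∈ G.X (G.cls l a) l :=
  (G.part l a).choose_spec.1

theorem cls_eq (G : Gadget Γ A Λ k) {l : Λ} {a : A} {c : Γ} (h : a ∈ G.X c l) : G.cls l a = c :=
  ((G.part l a).choose_spec.2 c h).symm

theorem mem_iff (G : Gadget Γ A Λ k) {l : Λ} {a : A} {c : Γ} : a ∈ G.X c l ↔ G.cls l a = c :=
  ⟨G.cls_eq, fun h => h ▸ G.mem_cls l a⟩

theorem card_eq [Fintype Γ] [Fintype A] (G : Gadget Γ A Λ k) (l : Λ) :
    Fintype.card A = ∑ c, k c := by
  classical
  rw [← Finset.card_univ, Finset.card_eq_sum_card_fiberwise (f := G.cls l) (t := univ)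
    (fun _ _ => Finset.mem_univ _)]
  refine Finset.sum_congr rfl fun c _ => ?_
  rw [← G.cardX c l]
  congr 1
  ext a
  simp [G.mem_iff]

theorem exists_label (G : Gadget Γ A Λ k) (c : Γ) : Nonempty Λ := by
  obtain ⟨Y, hY1, hY2⟩ := Finset.exists_subset_card_eq
    (show k c ≤ (G.M c).card by rw [G.cardM c]; omega)
  obtain ⟨l, -⟩ := G.surj c Y hY1 hY2
  exact ⟨l⟩

/-- two `k`-subsets of a `2k`-set which are not complementary meet -/
theorem exists_common (G : Gadget Γ A Λ k) (c : Γ) {l l' : Λ} (h : G.X c l' ≠ G.M c \ G.X c l) :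
    ∃ a, a ∈ G.X c l ∧ a ∈ G.X c l' := by
  by_contra hcon
  push Not at hcon
  apply h
  refine Finset.eq_of_subset_of_card_le ?_ ?_
  · intro a ha
    rw [Finset.mem_sdiff]
    exact ⟨G.sub c l' ha, fun h' => hcon a h' ha⟩
  · rw [Finset.card_sdiff_of_subset (G.sub c l), G.cardM, G.cardX, G.cardX]
    omega

/-- change of the index set of the classes -/
def reindex {Γ' : Type} (G : Gadget Γ A Λ k) (e : Γ' ≃ Γ) : Gadget Γ' A Λ (k ∘ e) where
  X c := G.X (e c)
  M c := G.M (e c)
  cardX c := G.cardX (e c)
  cardM c := G.cardM (e c)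
  sub c := G.sub (e c)
  part l a := by
    obtain ⟨c, hc, hc'⟩ := G.part l a
    refine ⟨e.symm c, by simpa using hc, fun c' h => ?_⟩
    rw [← hc' (e c') h, Equiv.symm_apply_apply]
  surj c := G.surj (e c)

end Gadget

/-- the pair gadget -/
def pairGadget (s : ℕ) : Gadget Bool (Fin (2 * s)) {L : Finset (Fin (2 * s)) // L.card = s}
    (fun _ => s) where
  X c l := match c with
    | false => l.1
    | true => l.1ᶜ
  M _ := univ
  cardX c l := by
    cases c with
    | false => exact l.2
    | true => rw [Finset.card_compl, Fintype.card_fin, l.2]; omega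
  cardM _ := by rw [Finset.card_univ, Fintype.card_fin]
  sub _ _ := Finset.subset_univ _
  part l a := by
    by_cases h : a ∈ l.1
    · refine ⟨false, h, fun c hc => ?_⟩
      cases c with
      | false => rfl
      | true => exact absurd h (Finset.mem_compl.1 hc)
    · refine ⟨true, Finset.mem_compl.2 h, fun c hc => ?_⟩
      cases c with
      | false => exact absurd hc h
      | true => rfl
  surj c Y _ hY := by
    cases c with
    | false => exact ⟨⟨Y, hY⟩, rfl⟩
    | true =>
      exact ⟨⟨Yᶜ, by rw [Finset.card_compl, Fintype.card_fin, hY]; omega⟩, compl_compl Y⟩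

/-- the triangle gadget: three classes, `3 m` colours -/
def triGadget (m : ℕ) : Gadget (Fin 3) (Fin 3 × Fin m)
    {P : Fin 3 → Finset (Fin m) // ∀ i j, (P i).card = (P j).card} (fun _ => m) where
  X c l := univ.filter fun a => (a.1 = c ∧ a.2 ∈ l.1 c) ∨ (a.1 = c + 1 ∧ a.2 ∉ l.1 (c + 1))
  M c := univ.filter fun a => a.1 = c ∨ a.1 = c + 1
  cardX c l := by
    have h : (univ.filter fun a : Fin 3 × Fin m =>
        (a.1 = c ∧ a.2 ∈ l.1 c) ∨ (a.1 = c + 1 ∧ a.2 ∉ l.1 (c + 1))) =
        (({c} : Finset (Fin 3)) ×ˢ l.1 c) ∪ (({c + 1} : Finset (Fin 3)) ×ˢ (l.1 (c + 1))ᶜ) := by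
      ext a
      simp only [Finset.mem_filter, Finset.mem_univ, true_and, Finset.mem_union,
        Finset.mem_product, Finset.mem_singleton, Finset.mem_compl]
    rw [h, Finset.card_union_of_disjoint, Finset.card_product, Finset.card_product,
      Finset.card_singleton, Finset.card_singleton, Finset.card_compl, Fintype.card_fin,
      l.2 (c + 1) c]
    · have := Finset.card_le_univ (l.1 c)
      rw [Fintype.card_fin] at this
      omega
    · rw [Finset.disjoint_left]
      intro a h1 h2
      rw [Finset.mem_product, Finset.mem_singleton] at h1 h2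
      have : c = c + 1 := h1.1.symm.trans h2.1
      revert this
      fin_cases c <;> decide
  cardM c := by
    have h : (univ.filter fun a : Fin 3 × Fin m => a.1 = c ∨ a.1 = c + 1) =
        (({c, c + 1} : Finset (Fin 3)) ×ˢ (univ : Finset (Fin m))) := by
      ext a
      simp
    rw [h, Finset.card_product, Finset.card_univ, Fintype.card_fin, Finset.card_pair]
    fin_cases c <;> decide
  sub c l := by
    intro a ha
    rw [Finset.mem_filter] at ha ⊢
    rcases ha.2 with h | h
    · exact ⟨ha.1, Or.inl h.1⟩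
    · exact ⟨ha.1, Or.inr h.1⟩
  part l a := by
    obtain ⟨e, x⟩ := a
    by_cases h : x ∈ l.1 e
    · refine ⟨e, by simp [h], fun c hc => ?_⟩
      rcases (Finset.mem_filter.1 hc).2 with h' | h'
      · exact h'.1.symm
      · exfalso
        have h1 : e = c + 1 := h'.1
        exact h'.2 (h1 ▸ h)
    · refine ⟨e + 2, ?_, fun c hc => ?_⟩
      · have h2 : e + 2 + 1 = e := by fin_cases e <;> rfl
        simp [h2, h]
      · rcases (Finset.mem_filter.1 hc).2 with h' | h'
        · exfalso
          have h1 : e = c := h'.1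
          exact h (h1 ▸ h'.2)
        · have h1 : e = c + 1 := h'.1
          rw [h1]
          fin_cases c <;> rfl
  surj c Y hY hYc := by
    classical
    have hne : c ≠ c + 1 := by fin_cases c <;> decide
    set t := (univ.filter fun x : Fin m => (c, x) ∈ Y) with ht
    set t' := (univ.filter fun x : Fin m => (c + 1, x) ∈ Y) with ht'
    have hcard : t.card + t'.card = m := by
      refine Eq.trans ?_ hYc
      have h : Y = (({c} : Finset (Fin 3)) ×ˢ t) ∪ (({c + 1} : Finset (Fin 3)) ×ˢ t') := by
        ext ⟨e, x⟩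
        simp only [Finset.mem_union, Finset.mem_product, Finset.mem_singleton, ht, ht',
          Finset.mem_filter, Finset.mem_univ, true_and]
        constructor
        · intro h
          rcases (Finset.mem_filter.1 (hY h)).2 with h' | h'
          · have h1 : e = c := h'
            exact Or.inl ⟨h1, h1 ▸ h⟩
          · have h1 : e = c + 1 := h'
            exact Or.inr ⟨h1, h1 ▸ h⟩
        · rintro (⟨rfl, h⟩ | ⟨rfl, h⟩) <;> exact h
      refine Eq.trans ?_ (congrArg Finset.card h).symm
      rw [Finset.card_union_of_disjoint, Finset.card_product, Finset.card_product,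
        Finset.card_singleton, Finset.card_singleton, one_mul, one_mul]
      rw [Finset.disjoint_left]
      intro a h1 h2
      rw [Finset.mem_product, Finset.mem_singleton] at h1 h2
      exact hne (h1.1.symm.trans h2.1)
    have htc : (t'ᶜ).card = t.card := by
      rw [Finset.card_compl, Fintype.card_fin]; omega
    refine ⟨⟨fun i => if i = c + 1 then t'ᶜ else t, fun i j => ?_⟩, ?_⟩
    · dsimp only
      split_ifs <;> simp [htc]
    · ext ⟨e, x⟩
      simp only [Finset.mem_filter, Finset.mem_univ, true_and, if_neg hne, if_true,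
        Finset.mem_compl, not_not]
      constructor
      · rintro (⟨rfl, h⟩ | ⟨rfl, h⟩)
        · exact (Finset.mem_filter.1 h).2
        · exact (Finset.mem_filter.1 h).2
      · intro h
        rcases (Finset.mem_filter.1 (hY h)).2 with h' | h'
        · have h1 : e = c := h'
          exact Or.inl ⟨h1, Finset.mem_filter.2 ⟨Finset.mem_univ _, h1 ▸ h⟩⟩
        · have h1 : e = c + 1 := h'
          exact Or.inr ⟨h1, Finset.mem_filter.2 ⟨Finset.mem_univ _, h1 ▸ h⟩⟩

/-- disjoint union of two gadgets -/
def Gadget.sum {Γ₁ A₁ Λ₁ Γ₂ A₂ Λ₂ : Type} [DecidableEq A₁] [DecidableEq A₂]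
    {k₁ : Γ₁ → ℕ} {k₂ : Γ₂ → ℕ} [Nonempty Λ₁] [Nonempty Λ₂]
    (G₁ : Gadget Γ₁ A₁ Λ₁ k₁) (G₂ : Gadget Γ₂ A₂ Λ₂ k₂) :
    Gadget (Γ₁ ⊕ Γ₂) (A₁ ⊕ A₂) (Λ₁ × Λ₂) (Sum.elim k₁ k₂) where
  X c l := match c with
    | Sum.inl c => (G₁.X c l.1).map Function.Embedding.inl
    | Sum.inr c => (G₂.X c l.2).map Function.Embedding.inr
  M c := match c with
    | Sum.inl c => (G₁.M c).map Function.Embedding.inl
    | Sum.inr c => (G₂.M c).map Function.Embedding.inr
  cardX c l := by
    rcases c with c | c
    · simp [G₁.cardX]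
    · simp [G₂.cardX]
  cardM c := by
    rcases c with c | c
    · simp [G₁.cardM]
    · simp [G₂.cardM]
  sub c l := by
    rcases c with c | c
    · exact Finset.map_subset_map.2 (G₁.sub c l.1)
    · exact Finset.map_subset_map.2 (G₂.sub c l.2)
  part l a := by
    rcases a with a | a
    · obtain ⟨c, hc, hc'⟩ := G₁.part l.1 a
      refine ⟨Sum.inl c, by simpa using hc, ?_⟩
      rintro (c' | c') h
      · rw [hc' c' (by simpa using h)]
      · simp at h
    · obtain ⟨c, hc, hc'⟩ := G₂.part l.2 a
      refine ⟨Sum.inr c, by simpa using hc, ?_⟩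
      rintro (c' | c') h
      · simp at h
      · rw [hc' c' (by simpa using h)]
  surj c Y hY hYc := by
    classical
    rcases c with c | c
    · obtain ⟨Y', hY'1, rfl⟩ := Finset.subset_map_iff.1 hY
      obtain ⟨l, hl⟩ := G₁.surj c Y' hY'1 (by simpa using hYc)
      obtain ⟨l2⟩ := (inferInstance : Nonempty Λ₂)
      exact ⟨(l, l2), by simp [hl]⟩
    · obtain ⟨Y', hY'1, rfl⟩ := Finset.subset_map_iff.1 hY
      obtain ⟨l, hl⟩ := G₂.surj c Y' hY'1 (by simpa using hYc)
      obtain ⟨l1⟩ := (inferInstance : Nonempty Λ₁)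
      exact ⟨(l1, l), by simp [hl]⟩

/-- a power of a gadget -/
def Gadget.pow {Γ A Λ : Type} [DecidableEq A] {k : Γ → ℕ} [Nonempty Λ] (I : Type)
    [DecidableEq I] (G : Gadget Γ A Λ k) :
    Gadget (I × Γ) (I × A) (I → Λ) (fun c => k c.2) where
  X c l := (G.X c.2 (l c.1)).map (Function.Embedding.sectR c.1 A)
  M c := (G.M c.2).map (Function.Embedding.sectR c.1 A)
  cardX c l := by simp [G.cardX]
  cardM c := by simp [G.cardM]
  sub c l := Finset.map_subset_map.2 (G.sub c.2 _)
  part l a := by
    obtain ⟨i, a⟩ := a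
    obtain ⟨c, hc, hc'⟩ := G.part (l i) a
    refine ⟨(i, c), by simpa using hc, ?_⟩
    rintro ⟨j, c'⟩ h
    obtain ⟨b, hb, hb'⟩ := Finset.mem_map.1 h
    have h1 : j = i := congrArg Prod.fst hb'
    have h2 : b = a := congrArg Prod.snd hb'
    subst h1 h2
    rw [hc' c' hb]
  surj c Y hY hYc := by
    classical
    obtain ⟨Y', hY'1, rfl⟩ := Finset.subset_map_iff.1 hY
    obtain ⟨l, hl⟩ := G.surj c.2 Y' hY'1 (by simpa using hYc)
    refine ⟨fun _ => l, by simp [hl]⟩

end P045.LS
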