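import Vale.Agent.P045.Bdl.B1

/-!
# P045: interface for the theorem: the conjecture of Ryser fails for all sufficiently large `r`

`Outer N T`: a nonempty finite set `W` with `N` direction partitions and `T` colour
partitions such that any two points are together in some block and such that for all weights
`a d ≤ u` (weight `a d` on the direction `d`, weight `u` on all colours) with
`(N + T + 1) a d ≥ ∑ a + T u`, every cover of `W` by blocks has weight at least `∑ a + T u`.
-/

namespace P045.LS

/-- the weighted dual form used for the outer hypergraph of a composition -/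
def Outer (N T : ℕ) : Prop :=
  ∃ (P Q W Z : Type) (_ : Fintype P) (_ : Fintype Q) (_ : Fintype W) (_ : Fintype Z)
    (_ : DecidableEq P) (_ : DecidableEq Q) (_ : DecidableEq W) (_ : DecidableEq Z)
    (f : P ⊕ Q → W → Z),
    Nonempty W ∧ Fintype.card P = N ∧ Fintype.card Q = T ∧
    (∀ w w' : W, ∃ i, f i w = f i w') ∧
    ∀ (a : P → ℕ) (u : ℕ), (∀ d, a d ≤ u) →
      (∀ d, ∑ e, a e + T * u ≤ (N + T + 1) * a d) →
      ∀ C : Finset ((P ⊕ Q) × Z), (∀ w, ∃ i, (i, f i w) ∈ C) →
        ∑ e, a e + T * u ≤ ∑ z ∈ C, Sum.elim a (fun _ => u) z.1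

end P045.LS
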