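import Vale.Agent.P045.H414.Cover

/-!
# P045: the gadget theorem for general gadgets, and the instance over `F_{127^h}`
-/

namespace P045.LS

open Finset

/-- Labels: a finite family of sets `pts x`, each with at least `K` points, each point in at most
`m` of them. -/
theorem exists_labelsN {X α Lab : Type*} [Fintype X] [DecidableEq X] [DecidableEq α]
    [Fintype Lab] [DecidableEq Lab] [Nonempty Lab] (m : ℕ)
    (pts : X → Finset α) (K T : ℕ) (hK : m * (T + 1) * Fintype.card Lab ≤ K) (hKpos : 0 < K)
    (h1 : ∀ x, K ≤ (pts x).card) (h2 : ∀ p, (univ.filter (fun x => p ∈ pts x)).card ≤ m) :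
    ∃ S : α → Lab, ∀ (x : X) (L : Lab), T + 1 ≤ ((pts x).filter (fun p => S p = L)).card := by
  classical
  obtain ⟨f, hinj, hf⟩ := hall_deg (ι := X × Lab × Fin (T + 1)) (fun d => pts d.1) K hKpos
    (fun d => h1 d.1) (by
      intro p
      have : (univ.filter (fun d : X × Lab × Fin (T + 1) => p ∈ pts d.1)) =
          (univ.filter (fun x => p ∈ pts x)) ×ˢ (univ : Finset (Lab × Fin (T + 1))) := by
        ext d
        simp
      rw [this, Finset.card_product, Finset.card_univ, Fintype.card_prod, Fintype.card_fin]
      refine le_trans ?_ hK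
      calc _ ≤ m * (Fintype.card Lab * (T + 1)) := Nat.mul_le_mul_right _ (h2 p)
        _ = _ := by ring)
  refine ⟨fun p => if h : ∃ d, f d = p then (h.choose).2.1 else Classical.arbitrary Lab, ?_⟩
  intro x L
  have hS : ∀ d, (if h : ∃ d', f d' = f d then (h.choose).2.1 else Classical.arbitrary Lab)
      = d.2.1 := by
    intro d
    have h : ∃ d', f d' = f d := ⟨d, rfl⟩
    rw [dif_pos h, hinj h.choose_spec]
  have hinj2 : Function.Injective (fun l : Fin (T + 1) => f (x, L, l)) := by
    intro l l' h
    have := hinj h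
    simpa using this
  calc T + 1 = (univ.image (fun l : Fin (T + 1) => f (x, L, l))).card := by
        rw [Finset.card_image_of_injective _ hinj2, Finset.card_univ, Fintype.card_fin]
    _ ≤ _ := by
        refine Finset.card_le_card ?_
        intro p hp
        obtain ⟨l, -, rfl⟩ := Finset.mem_image.1 hp
        refine Finset.mem_filter.2 ⟨hf (x, L, l), hS (x, L, l)⟩

/-- **The gadget theorem** for general gadgets. -/
theorem outer_of_classes {F : Type} [Field F] [Fintype F] [DecidableEq F]
    {Γ A Λ : Type} [Fintype Γ] [DecidableEq Γ] [Nonempty Γ] [Fintype A] [DecidableEq A]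
    [Fintype Λ] {k : Γ → ℕ} (G : Gadget Γ A Λ k) (hk : ∀ c, 4 ≤ k c)
    (B : Γ → Finset (Line F)) (Ω : Finset (Pt F))
    (hdisj : ∀ c c', c ≠ c' → Disjoint (B c) (B c'))
    (hcov : ∀ c p, ∃ x ∈ B c, On p x)
    (huniq : ∀ p ∈ Ω, ∀ c, ∀ x ∈ B c, ∀ y ∈ B c, On p x → On p y → x = y)
    (hdir : ∀ d : Option F, Fintype.card A + 2 ≤
      ∑ c, k c * ((B c).filter fun x => x.1 = d).card)
    (hbig : ∀ x : Line F, Fintype.card Γ * (Fintype.card A + 2) * Fintype.card Λ ≤
      (Ω.filter fun p => On p x).card)
    (ht2 : (Fintype.card A + 1) ^ 2 < Fintype.card F)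
    (hrig : ∀ L : Finset (Line F), L.card ≤ Fintype.card F + (Fintype.card A + 1) →
      (∀ p ∈ Ω, ∃ x ∈ L, On p x) → ∀ p, ∃ x ∈ L, On p x) :
    Outer (Fintype.card F + 1) (Fintype.card A) := by
  classical
  obtain ⟨c0⟩ := (inferInstance : Nonempty Γ)
  have hΛ : Nonempty Λ := G.exists_label c0
  have hΛpos : 0 < Fintype.card Λ := Fintype.card_pos
  have hΓpos : 0 < Fintype.card Γ := Fintype.card_pos_iff.2 ⟨c0⟩
  let typ : Line F → Option Γ := fun x =>
    if h : ∃ c : Γ, x ∈ B c then some h.choose else none
  have htyp : ∀ x c, typ x = some c ↔ x ∈ B c := by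
    intro x c
    constructor
    · intro h
      by_cases h' : ∃ c : Γ, x ∈ B c
      · have h1 : typ x = some h'.choose := dif_pos h'
        rw [h1] at h
        have h2 := Option.some.inj h
        have h3 := h'.choose_spec
        rw [h2] at h3
        exact h3
      · have h1 : typ x = none := dif_neg h'
        rw [h1] at h
        exact absurd h (by simp)
    · intro h
      have h' : ∃ c : Γ, x ∈ B c := ⟨c, h⟩
      have h1 : typ x = some h'.choose := dif_pos h'
      rw [h1]
      congr 1
      by_contra hne
      exact Finset.disjoint_left.1 (hdisj h'.choose c hne) h'.choose_spec h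
  obtain ⟨S, hS⟩ := exists_labelsN (X := Σ c : Γ, {x // x ∈ B c}) (Lab := Λ) (Fintype.card Γ)
    (fun x => Ω.filter fun p => On p x.2.1)
    (Fintype.card Γ * (Fintype.card A + 2) * Fintype.card Λ) (Fintype.card A + 1) le_rfl
    (by positivity) (fun x => hbig x.2.1) (by
      intro p
      refine le_trans (Finset.card_le_card_of_injOn (t := (univ : Finset Γ))
        (fun x => x.1) (fun _ _ => Finset.mem_univ _) ?_) (by rw [Finset.card_univ])
      rintro ⟨c, x⟩ hx ⟨c', y⟩ hy h
      obtain rfl : c = c' := h
      have h1 := Finset.mem_filter.1 (Finset.mem_filter.1 hx).2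
      have h2 := Finset.mem_filter.1 (Finset.mem_filter.1 hy).2
      have h3 := huniq p h1.1 c x.1 x.2 y.1 y.2 h1.2 h2.2
      have h4 : x = y := Subtype.ext h3
      rw [h4])
  choose xl hxl1 hxl2 using hcov
  let D : GSplit F G :=
    { Om := Ω
      typ := typ
      xl := xl
      S := S
      hk := hk
      xl_on := hxl2
      xl_typ := fun c p => (htyp _ c).2 (hxl1 c p)
      uniq := fun c p hp x hpx hx => huniq p hp c x ((htyp x c).1 hx) _ (hxl1 c p) hpx
        (hxl2 c p)
      rich := by
        intro x c hx Y hY hYc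
        obtain ⟨l, hl⟩ := G.surj c Y hY hYc
        refine (hS ⟨c, ⟨x, (htyp x c).1 hx⟩⟩ l).trans (Finset.card_le_card ?_)
        intro p hp
        obtain ⟨h1, h2⟩ := Finset.mem_filter.1 hp
        obtain ⟨h3, h4⟩ := Finset.mem_filter.1 h1
        exact Finset.mem_filter.2 ⟨h3, h4, by rw [h2, hl]⟩
      dir := by
        intro d
        refine lt_of_lt_of_le (Nat.lt_of_succ_le (hdir d)) ?_
        have h1 : ∀ c' : F, ∑ c, (if (d, c') ∈ B c then k c else 0) ≤
            gext k (typ (d, c')) := by
          intro c'
          rcases ht : typ (d, c') with _ | j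
          · refine le_of_eq (Finset.sum_eq_zero fun c _ => ?_)
            rw [if_neg]
            intro h
            rw [(htyp _ c).2 h] at ht
            exact absurd ht (by simp)
          · have h2 : ∀ c, (if (d, c') ∈ B c then k c else 0) =
                if c = j then k j else 0 := by
              intro c
              by_cases h : (d, c') ∈ B c
              · have h3 := (htyp _ c).2 h
                rw [ht] at h3
                have h4 := Option.some.inj h3
                rw [if_pos h, if_pos h4.symm, h4]
              · rw [if_neg h, if_neg]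
                rintro rfl
                exact h ((htyp _ _).1 ht)
            rw [Finset.sum_congr rfl fun c _ => h2 c]
            simp [gext]
        have h5 : ∑ c' : F, ∑ c, (if (d, c') ∈ B c then k c else 0) =
            ∑ c, k c * ((B c).filter fun x => x.1 = d).card := ?_
        · rw [← h5]
          exact Finset.sum_le_sum fun c' _ => h1 c'
        rw [Finset.sum_comm]
        refine Finset.sum_congr rfl fun c _ => ?_
        rw [← Finset.sum_filter, Finset.sum_const, smul_eq_mul, mul_comm]
        congr 1
        refine Finset.card_bij (fun c' _ => (d, c')) ?_ ?_ ?_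
        · intro c' hc
          exact Finset.mem_filter.2 ⟨(Finset.mem_filter.1 hc).2, rfl⟩
        · intro c' _ c'' _ h
          exact (Prod.mk.inj h).2
        · intro x hx
          obtain ⟨hx1, hx2⟩ := Finset.mem_filter.1 hx
          refine ⟨x.2, Finset.mem_filter.2 ⟨Finset.mem_univ _, ?_⟩, ?_⟩
          · rw [← hx2]; exact hx1
          · rw [← hx2] }
  exact D.outer ht2 hrig

/-- rigidity of `Ω` for `q = 127`, `n` large, any `t` small compared to `n` -/
theorem rigid_127' {k F : Type} [Field k] [Fintype k] [DecidableEq k] [Field F] [Fintype F]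
    [DecidableEq F] [Algebra k F] (hk : Fintype.card k = 127) (hn : 127 ^ 5 ≤ Fintype.card F)
    (hco : Nat.Coprime (Module.finrank k F) 126) (t : ℕ) (ht : 1000 * (t + 1) ≤ Fintype.card F)
    (L : Finset (Line F)) (hL : L.card ≤ Fintype.card F + t)
    (hcov : ∀ p ∈ Om k F, ∃ x ∈ L, On p x) : ∀ p, ∃ x ∈ L, On p x := by
  set n := Fintype.card F with hndef
  have h126 : Fintype.card k - 1 = 126 := by rw [hk]
  have hco' : Nat.Coprime (Module.finrank k F) (Fintype.card k - 1) := by rw [h126]; exact hco
  refine rigid (Om k F) t (2 * n / 127) (126 * (127 * n)) (126 * 253) (n / 7) ?_ ?_ ?_ (wt k)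
    ?_ ?_ ?_ ?_ ?_ L hL hcov
  · have := pow5
    omega
  · intro x
    have h := card_line_Om_compl (k := k) hco' x
    rw [hk, ← hndef] at h
    rw [Nat.le_div_iff_mul_le (by norm_num)]
    linarith
  · have h := card_Om_compl (k := k) (F := F)
    rw [hk, ← hndef] at h
    have h7 : n < 7 * (n / 7 + 1) := by omega
    have h3 : 2 * ((n / 7 + 2).choose 2) = (n / 7 + 2) * (n / 7 + 1) := by
      rw [Nat.choose_two_right]
      have : 2 ∣ (n/7+2) * (n/7+2-1) := by
        have := Nat.even_mul_succ_self (n/7+1)
        have h2 : (n/7+2) * (n/7+2-1) = (n/7+1) * (n/7+1+1) := by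
          have : n/7+2-1 = n/7+1 := by omega
          rw [this]; ring
        rw [h2]; exact this.two_dvd
      rw [Nat.mul_div_cancel' this]
      rfl
    set a := n / 7 with ha
    have h4 : n ^ 2 < 49 * (a + 1) ^ 2 := by nlinarith
    nlinarith
  · have h := sum_wt (k := k) (F := F)
    rw [hk, ← hndef] at h
    exact h
  · norm_num
  · intro w hw
    have h := wt_through (k := k) w hw
    rw [hk] at h
    exact h
  · have := pow5
    have h1 : 127 * (2 * n / 127) ≤ 2 * n := Nat.mul_div_le _ _
    have h2 : 7 * (n / 7) ≤ n := Nat.mul_div_le _ _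
    omega
  · have := pow5
    have h1 : 127 * (2 * n / 127) ≤ 2 * n := Nat.mul_div_le _ _
    have h2 : 7 * (n / 7) ≤ n := Nat.mul_div_le _ _
    omega

section Conc

variable {F : Type} [Field F] [Fintype F] [DecidableEq F] [Algebra (ZMod 127) F]

/-- the classes of split lines, indexed by the nonzero elements of `F_127` and the vertical and
horizontal directions -/
def CL (F : Type) [Field F] [Fintype F] [DecidableEq F] [Algebra (ZMod 127) F] :
    {l : ZMod 127 // l ≠ 0} ⊕ Bool → Finset (Line F)
  | Sum.inl l => cls F l.1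
  | Sum.inr false => Finset.univ.filter fun x => x.1 = none
  | Sum.inr true => Finset.univ.filter fun x => x.1 = some 0

theorem CL_disj (hco : Nat.Coprime (Module.finrank (ZMod 127) F) 126)
    (c c' : {l : ZMod 127 // l ≠ 0} ⊕ Bool) (h : c ≠ c') : Disjoint (CL F c) (CL F c') := by
  have hco' : Nat.Coprime (Module.finrank (ZMod 127) F) (Fintype.card (ZMod 127) - 1) := by
    rw [ZMod.card]; exact hco
  rcases c with l | b <;> rcases c' with l' | b'
  · apply cls_disj hco' _ _ l.2 l'.2
    intro hl
    exact h (by rw [Subtype.ext hl])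
  · rw [Finset.disjoint_left]
    intro x hx hx'
    obtain ⟨m, hm, hxm⟩ := cls_slope _ l.2 x hx
    cases b' <;> simp only [CL, Finset.mem_filter, Finset.mem_univ, true_and] at hx'
    · rw [hx'] at hxm; exact absurd hxm (by simp)
    · rw [hx'] at hxm; exact hm (Option.some.inj hxm).symm
  · rw [Finset.disjoint_left]
    intro x hx' hx
    obtain ⟨m, hm, hxm⟩ := cls_slope _ l'.2 x hx
    cases b <;> simp only [CL, Finset.mem_filter, Finset.mem_univ, true_and] at hx'
    · rw [hx'] at hxm; exact absurd hxm (by simp)
    · rw [hx'] at hxm; exact hm (Option.some.inj hxm).symm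
  · cases b <;> cases b'
    · exact absurd rfl h
    · rw [Finset.disjoint_left]
      intro x hx hx'
      simp only [CL, Finset.mem_filter, Finset.mem_univ, true_and] at hx hx'
      rw [hx] at hx'; exact absurd hx' (by simp)
    · rw [Finset.disjoint_left]
      intro x hx hx'
      simp only [CL, Finset.mem_filter, Finset.mem_univ, true_and] at hx hx'
      rw [hx] at hx'; exact absurd hx' (by simp)
    · exact absurd rfl h

theorem CL_cov (c : {l : ZMod 127 // l ≠ 0} ⊕ Bool) (p : Pt F) : ∃ x ∈ CL F c, On p x := by
  rcases c with l | b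
  · exact cls_cov _ l.2 p
  · cases b
    · exact ⟨(none, p 0), by simp [CL], rfl⟩
    · exact ⟨(some 0, icpt (some 0) p), by simp [CL], rfl⟩

theorem CL_uniq (p : Pt F) (hp : p ∈ Om (ZMod 127) F) (c : {l : ZMod 127 // l ≠ 0} ⊕ Bool)
    (x : Line F) (hx : x ∈ CL F c) (y : Line F) (hy : y ∈ CL F c) (h1 : On p x) (h2 : On p y) :
    x = y := by
  rcases c with l | b
  · simp only [Om, Finset.mem_filter, Finset.mem_univ, true_and] at hp
    exact hp _ l.2 x hx y hy h1 h2
  · have hxy : x.1 = y.1 := by
      cases b <;> simp only [CL, Finset.mem_filter, Finset.mem_univ, true_and] at hx hy <;>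
        rw [hx, hy]
    refine Prod.ext hxy ?_
    unfold On at h1 h2
    rw [← h1, ← h2, hxy]

/-- the number of points of `Ω` on a line -/
theorem card_Om_line (hn : 127 ^ 5 ≤ Fintype.card F)
    (hco : Nat.Coprime (Module.finrank (ZMod 127) F) 126) (x : Line F) :
    Fintype.card F ≤ 2 * ((Om (ZMod 127) F).filter fun p => On p x).card := by
  have hp5 := pow5
  have hco' : Nat.Coprime (Module.finrank (ZMod 127) F) (Fintype.card (ZMod 127) - 1) := by
    rw [ZMod.card]; exact hco
  have h1 := card_line_Om_compl (k := ZMod 127) hco' x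
  rw [ZMod.card] at h1
  have h2 : (Finset.univ.filter fun p : Pt F => On p x).card = Fintype.card F :=
    Bruen.card_line x.1 x.2
  have h3 : (Finset.univ.filter fun p : Pt F => On p x).card =
      ((Om (ZMod 127) F).filter fun p => On p x).card +
        (Finset.univ.filter fun p => On p x ∧ p ∉ Om (ZMod 127) F).card := by
    rw [← Finset.card_union_of_disjoint]
    · congr 1
      ext p
      simp only [Finset.mem_filter, Finset.mem_univ, true_and, Finset.mem_union]
      tauto
    · rw [Finset.disjoint_left]
      intro p hp hp'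
      simp only [Finset.mem_filter, Finset.mem_univ, true_and] at hp hp'
      exact hp'.2 hp.1
  omega

/-- the instance for a gadget on the classes, over a large field -/
theorem outer_of_field {A Λ : Type} [Fintype A] [DecidableEq A] [Fintype Λ]
    {k : {l : ZMod 127 // l ≠ 0} ⊕ Bool → ℕ}
    (G : Gadget ({l : ZMod 127 // l ≠ 0} ⊕ Bool) A Λ k) (hk : ∀ c, 4 ≤ k c)
    (hk1 : ∀ l, Fintype.card A + 2 ≤ k (Sum.inl l) * 127)
    (hn : 127 ^ 5 ≤ Fintype.card F)
    (hco : Nat.Coprime (Module.finrank (ZMod 127) F) 126)
    (hn1 : 1000 * (Fintype.card A + 2) ≤ Fintype.card F)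
    (hn2 : (Fintype.card A + 1) ^ 2 < Fintype.card F)
    (hn3 : 2 * (128 * (Fintype.card A + 2) * Fintype.card Λ) ≤ Fintype.card F) :
    Outer (Fintype.card F + 1) (Fintype.card A) := by
  have hco' : Nat.Coprime (Module.finrank (ZMod 127) F) (Fintype.card (ZMod 127) - 1) := by
    rw [ZMod.card]; exact hco
  have hcΓ : Fintype.card ({l : ZMod 127 // l ≠ 0} ⊕ Bool) = 128 := by
    rw [Fintype.card_sum, Fintype.card_bool]
    have : Fintype.card {l : ZMod 127 // l ≠ 0} = 126 := by
      rw [Fintype.card_subtype_compl, ZMod.card, Fintype.card_subtype_eq]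
    omega
  have hne : Nonempty ({l : ZMod 127 // l ≠ 0} ⊕ Bool) := ⟨Sum.inr true⟩
  refine outer_of_classes G hk (CL F) (Om (ZMod 127) F) (CL_disj hco) CL_cov
    (fun p hp c x hx y hy => CL_uniq p hp c x hx y hy) ?_ ?_ hn2 ?_
  · intro d
    have hterm : ∀ c, k c * ((CL F c).filter fun x => x.1 = d).card ≤
        ∑ c, k c * ((CL F c).filter fun x => x.1 = d).card := fun c =>
      Finset.single_le_sum
        (f := fun c => k c * ((CL F c).filter fun x => x.1 = d).card)
        (fun _ _ => Nat.zero_le _) (Finset.mem_univ c)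
    rcases d with _ | m
    · refine le_trans ?_ (hterm (Sum.inr false))
      have : ((CL F (Sum.inr false)).filter fun x => x.1 = none) =
          (Finset.univ.filter fun x : Line F => x.1 = none) := by
        ext x; simp [CL]
      rw [this, card_dir]
      have h4 := hk (Sum.inr false)
      nlinarith
    · by_cases hm : m = 0
      · subst hm
        refine le_trans ?_ (hterm (Sum.inr true))
        have : ((CL F (Sum.inr true)).filter fun x => x.1 = some 0) =
            (Finset.univ.filter fun x : Line F => x.1 = some 0) := by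
          ext x; simp [CL]
        rw [this, card_dir]
        have h4 := hk (Sum.inr true)
        nlinarith
      · obtain ⟨l, hl, hcard⟩ := cls_dir (k := ZMod 127) hco' m hm
        refine le_trans ?_ (hterm (Sum.inl ⟨l, hl⟩))
        rw [ZMod.card] at hcard
        have h5 := hk1 ⟨l, hl⟩
        refine h5.trans (Nat.mul_le_mul_left _ ?_)
        change 127 ≤ ((cls F l).filter fun x => x.1 = some m).card
        omega
  · intro x
    have h1 := card_Om_line hn hco x
    rw [hcΓ]
    omega
  · intro L hL hcov
    exact rigid_127' (k := ZMod 127) (ZMod.card 127) hn hco (Fintype.card A + 1) hn1 L hL hcov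

end Conc

end P045.LS
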